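import Vale.Agent.P366N.Stm2

/-! Properties of `Bm`. -/

namespace Vale.Agent.P366N

open scoped Matrix
open Matrix
open Vale.Agent.P366 (Pt dot_pos)

variable {J : Fin 9 → Matrix (Fin 16) (Fin 16) ℝ}

theorem bm_hor (h : IsCliff J) {x v : Pt 16} (hx : x ≠ 0) (hv : Hor J x v) :
    Bm J x v = ∑ i, ((J i *ᵥ x) ⬝ᵥ v) • J i := by
  rw [Bm, hv.x_dot h hx, zero_smul, zero_add]

theorem bm_dot (a : Fin 9 → ℝ) (x v : Pt 16) :
    ∑ i, a i * ((J i *ᵥ x) ⬝ᵥ v) = ((∑ i, a i • J i) *ᵥ x) ⬝ᵥ v := by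
  rw [Matrix.sum_mulVec, sum_dotProduct]
  exact Finset.sum_congr rfl fun i _ => by
    rw [Matrix.smul_mulVec, smul_dotProduct, smul_eq_mul]

theorem bm_x (h : IsCliff J) {x v : Pt 16} (hx : x ≠ 0) (hv : Hor J x v) :
    Bm J x v *ᵥ x = (x ⬝ᵥ x) • v := by
  have e := congrArg (fun M => M *ᵥ v) (fierz h hx)
  have hv' : prL J x *ᵥ v = 0 := hv
  simp only [Matrix.sum_mulVec, vecMulVec_mulVec, op_smul_eq_smul, Matrix.add_mulVec,
    Matrix.smul_mulVec, Matrix.sub_mulVec, Matrix.one_mulVec, hv', hv.x_dot h hx, zero_smul,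
    zero_add, sub_zero] at e
  rw [bm_hor h hx hv, Matrix.sum_mulVec, ← e]
  exact Finset.sum_congr rfl fun i _ => Matrix.smul_mulVec _ _ _

theorem bm_anti (h : IsCliff J) {x v w : Pt 16} (hx : x ≠ 0) (hv : Hor J x v) (hw : Hor J x w) :
    Bm J x v * Bm J x w + Bm J x w * Bm J x v =
      (2 * (x ⬝ᵥ x) * (v ⬝ᵥ w)) • (1 : Matrix (Fin 16) (Fin 16) ℝ) := by
  have e := h.cl (fun i => (J i *ᵥ x) ⬝ᵥ v) (fun i => (J i *ᵥ x) ⬝ᵥ w)
  rw [bm_dot, ← bm_hor h hx hv, ← bm_hor h hx hw, bm_x h hx hv, smul_dotProduct,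
    smul_eq_mul] at e
  rw [e, mul_assoc]

theorem bm_prL (h : IsCliff J) {x v : Pt 16} (hx : x ≠ 0) (hv : Hor J x v) :
    Bm J x v * prL J x = (1 - prL J x) * Bm J x v := by
  have e := h.cl (fun i => x ⬝ᵥ (J i *ᵥ x)) (fun i => (J i *ᵥ x) ⬝ᵥ v)
  rw [bm_dot, ← bm_hor h hx hv, lin h, smul_dotProduct, hv.x_dot h hx, smul_zero, mul_zero,
    zero_smul] at e
  have e2 := eq_neg_of_add_eq_zero_left e
  simp only [prL, Matrix.mul_smul, Matrix.smul_mul, Matrix.mul_add, Matrix.add_mul,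
    Matrix.sub_mul, Matrix.one_mul, Matrix.mul_one, e2]
  module

theorem bm_pf : BmStmt := by
  intro J x h hx
  have hp := (dot_pos hx).ne'
  refine ⟨?_, fun u => ?_, fun u w => ?_, fun y hy => ?_, fun v hv =>
    ⟨bm_x h hx hv, bm_prL h hx hv, fun w hw => ⟨bm_anti h hx hv hw, ?_⟩⟩⟩
  · have e : ∑ i, ((J i *ᵥ x) ⬝ᵥ x) • J i = ∑ i, (x ⬝ᵥ (J i *ᵥ x)) • J i :=
      Finset.sum_congr rfl fun i _ => by rw [dotProduct_comm]
    have e1 : 2 * (x ⬝ᵥ x) * (1 / 2 : ℝ) = x ⬝ᵥ x := by ring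
    rw [Bm, e, prL, smul_smul, e1, smul_add, smul_smul, mul_inv_cancel₀ hp, one_smul]
  · simp [Bm, Matrix.transpose_sum, h.1]
  · simp only [Em, Bm, Matrix.add_mulVec, Matrix.sum_mulVec, vecMulVec_mulVec, op_smul_eq_smul,
      Matrix.smul_mulVec, Matrix.one_mulVec]
  · simp only [Bm, hy.2, hy.z_dot h hx, zero_smul, Finset.sum_const_zero, add_zero]
  · have e := congrArg (fun M => M *ᵥ x) (bm_anti h hx hv hw)
    simp only [Matrix.add_mulVec, ← Matrix.mulVec_mulVec, bm_x h hx hv, bm_x h hx hw,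
      Matrix.mulVec_smul, Matrix.smul_mulVec, Matrix.one_mulVec] at e
    apply smul_right_injective _ hp
    change (x ⬝ᵥ x) • _ = (x ⬝ᵥ x) • _
    rw [smul_add, e, smul_smul]
    congr 1
    ring

end Vale.Agent.P366N
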