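import Vale.Agent.P366N.Stm2

/-! The Christoffel symbols of the ansatz. -/

namespace Vale.Agent.P366N

open scoped Matrix
open Matrix
open Vale.Agent.P366 (Pt Ten rad pd chr)

variable {J : Fin 9 → Matrix (Fin 16) (Fin 16) ℝ}

namespace ChrAux

theorem em_eq (h : IsCliff J) (x : Pt 16) (i j l : Fin 16) :
    Em J x (Pi.single i 1) l j = Bm J x (Pi.single j 1) i l := by
  have sy : ∀ a i j, J a i j = J a j i := fun a i j => congrFun (congrFun (h.1 a) j) i
  simp only [Em, Bm, Matrix.add_apply, Matrix.sum_apply, Matrix.smul_apply, vecMulVec_apply,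
    smul_eq_mul, dotProduct_single, mulVec_single_one, Matrix.col_apply, mul_one,
    Matrix.one_apply, Pi.single_apply, eq_comm (a := l)]
  rw [mul_comm]
  exact congrArg _ (Finset.sum_congr rfl fun a _ => by rw [sy a l i, mul_comm])

theorem bm_symm (h : IsCliff J) (x u : Pt 16) (j l : Fin 16) : Bm J x u j l = Bm J x u l j := by
  have sy : ∀ a i j, J a i j = J a j i := fun a i j => congrFun (congrFun (h.1 a) j) i
  simp only [Bm, Matrix.add_apply, Matrix.sum_apply, Matrix.smul_apply, smul_eq_mul,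
    Matrix.one_apply, eq_comm (a := l)]
  exact congrArg _ (Finset.sum_congr rfl fun a _ => by rw [sy a l j])

theorem chr_entry (h : IsCliff J) (x : Pt 16) (A B C A' B' C' : ℝ) (i j l : Fin 16) :
    Dm J x A B C A' B' C' (Pi.single i 1) j l + Dm J x A B C A' B' C' (Pi.single j 1) i l -
      Dm J x A B C A' B' C' (Pi.single l 1) i j =
      2 * Tm J x A B C A' B' C' (Pi.single i 1) l j := by
  have sy := blk_symm h x (A' - (A - C) / (x ⬝ᵥ x)) (B' - (B - C) / (x ⬝ᵥ x)) C'
  unfold Dm Tm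
  generalize blk J x (A' - (A - C) / (x ⬝ᵥ x)) (B' - (B - C) / (x ⬝ᵥ x)) C' = H at sy ⊢
  generalize (A - B) / (x ⬝ᵥ x) = f0
  generalize (B - C) / (x ⬝ᵥ x) = f1
  have d : ∀ a b : Fin 16, (Pi.single a (1 : ℝ) : Pt 16) b = (Pi.single b (1 : ℝ) : Pt 16) a :=
    fun a b => Pi.single_comm a 1 b
  simp only [Matrix.add_apply, Matrix.sub_apply, Matrix.smul_apply, Matrix.transpose_apply,
    vecMulVec_apply, smul_eq_mul, dotProduct_single, mulVec_single_one, Matrix.col_apply, mul_one,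
    em_eq h]
  rw [sy j l, sy i l, sy i j, d j i, d l i, d l j, bm_symm h x _ j l]
  ring

end ChrAux

open ChrAux in
theorem chr_pf (hJ : JetStmt) : ChrStmt := by
  intro J D x h hx hA hB hC k i j
  have hj := hJ J D.A D.B D.C x h hx (D.hA.differentiable (by simp) _)
    (D.hB.differentiable (by simp) _) (D.hC.differentiable (by simp) _)
  have e : (hopf J D.A D.B D.C x)⁻¹ =
      blk J x (D.A (x ⬝ᵥ x))⁻¹ (D.B (x ⬝ᵥ x))⁻¹ (D.C (x ⬝ᵥ x))⁻¹ := blk_inv h hx hA hB hC
  rw [chr, e, Gam, Matrix.mul_apply, Finset.mul_sum]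
  refine Finset.sum_congr rfl fun l _ => ?_
  rw [hj, hj, hj, chr_entry h]
  ring

end Vale.Agent.P366N
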