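import Vale.Agent.P366N.Stm2
import Vale.Agent.P366.Cur

/-! The radial component of the current. -/

namespace Vale.Agent.P366N

open scoped Matrix ContDiff Topology
open Filter Set
open Vale.Agent.P366 (Pt Ten pd chr mom cur Dat ll dot_pos cur_alg)

theorem cur_pf (hJ : JetStmt) (hK : KStmt) (hC : ChrStmt) (hV : VStmt) (hX : GxStmt)
    (hD : DivStmt) : CurStmt := by
  intro J D x hq hx hA hB hC'
  have ht := (dot_pos hx).ne'
  have hA' := hA.ne'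
  let p0 : ℝ → ℝ := fun s => -(D.A s * PP D s)
  let p1 : ℝ → ℝ := fun s => D.b s - (D.a s / D.A s + PP D s) * D.B s
  let p2 : ℝ → ℝ := fun s => D.c s - (D.a s / D.A s + PP D s) * D.C s
  have hm : ∀ y : Pt 16, y ≠ 0 → 0 < D.A (y ⬝ᵥ y) → D.B (y ⬝ᵥ y) ≠ 0 → D.C (y ⬝ᵥ y) ≠ 0 →
      mom (hopf J D.A D.B D.C) (hopf J D.a D.b D.c) y = hopf J p0 p1 p2 y := by
    intro y h0 h1 h2 h3
    have h4 : D.a (y ⬝ᵥ y) - (D.a (y ⬝ᵥ y) / D.A (y ⬝ᵥ y) + PP D (y ⬝ᵥ y)) * D.A (y ⬝ᵥ y) =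
        p0 (y ⬝ᵥ y) := by
      simp only [p0]
      field_simp
      ring
    simp only [mom]
    rw [(hK J D y hq h0 h1 h2 h3).1]
    simp only [hopf]
    rw [blk_smul, blk_sub, h4]
  have hc : Continuous fun y : Pt 16 => y ⬝ᵥ y := by fun_prop
  have hev : ∀ᶠ y in 𝓝 x, mom (hopf J D.A D.B D.C) (hopf J D.a D.b D.c) y = hopf J p0 p1 p2 y := by
    filter_upwards [isOpen_ne.mem_nhds hx,
      (D.hA.continuous.comp hc).continuousAt.eventually (lt_mem_nhds hA),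
      (D.hB.continuous.comp hc).continuousAt.eventually_ne hB,
      (D.hC.continuous.comp hc).continuousAt.eventually_ne hC'] with y h0 h1 h2 h3
    exact hm y h0 h1 h2 h3
  have dA := D.hA.differentiable (by simp) (x ⬝ᵥ x)
  have dB := D.hB.differentiable (by simp) (x ⬝ᵥ x)
  have dC := D.hC.differentiable (by simp) (x ⬝ᵥ x)
  have da := D.ha.differentiable (by simp) (x ⬝ᵥ x)
  have db := D.hb.differentiable (by simp) (x ⬝ᵥ x)
  have dc := D.hc.differentiable (by simp) (x ⬝ᵥ x)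
  have dP : DifferentiableAt ℝ (PP D) (x ⬝ᵥ x) :=
    ((db.div dB hB).const_mul 7).add ((dc.div dC hC').const_mul 8)
  have dT := (da.div dA hA').add dP
  have d0 : HasDerivAt p0 (-(deriv D.A (x ⬝ᵥ x) * PP D (x ⬝ᵥ x) +
      D.A (x ⬝ᵥ x) * deriv (PP D) (x ⬝ᵥ x))) (x ⬝ᵥ x) := (dA.hasDerivAt.mul dP.hasDerivAt).neg
  have hpd : ∀ i k j, pd i (fun y => mom (hopf J D.A D.B D.C) (hopf J D.a D.b D.c) y k j) x =
      Dm J x (p0 (x ⬝ᵥ x)) (p1 (x ⬝ᵥ x)) (p2 (x ⬝ᵥ x)) (deriv p0 (x ⬝ᵥ x)) (deriv p1 (x ⬝ᵥ x))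
        (deriv p2 (x ⬝ᵥ x)) (Pi.single i 1) k j := fun i k j => by
    rw [← hJ J p0 p1 p2 x hq hx d0.differentiableAt (db.sub (dT.mul dB)) (dc.sub (dT.mul dC))]
    unfold pd
    rw [Filter.EventuallyEq.fderiv_eq (f := fun y => hopf J p0 p1 p2 y k j)
      (hev.mono fun y hy => by simp only [hy])]
  simp only [cur, hpd, hC J D x hq hx hA' hB hC', hm x hx hA hB hC']
  simp only [hopf, blk_inv hq hx hA' hB hC']
  rw [cur_alg _ _ _ (fun i => Dm J x _ _ _ _ _ _ (Pi.single i 1))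
    (fun i => Gam J x _ _ _ _ _ _ (Pi.single i 1)) x _ (p0 (x ⬝ᵥ x)) _
    (hV J x _ _ _ _ _ _ hq hx hA' hB hC') (hX J x _ _ _ _ _ _ hq hx hA' hB hC')
    (fun l => congrFun (blk_x hq hx _ _ _) l), (hD J x _ _ _ _ _ _ _ _ _ hq hx).1, blk_mul hq hx,
    blk_mul hq hx, blk_trace hq hx, d0.deriv]
  simp only [p0, p1, p2, J1, vv, hh, ll]
  generalize deriv (PP D) (x ⬝ᵥ x) = P'
  simp only [PP]
  field_simp
  ring

end Vale.Agent.P366N
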