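import Vale.Agent.P366N.Stm2
import Vale.Agent.P366.Decay

/-! Decay of the six functions from asymptotic flatness (`Spin(9)` case). -/

namespace Vale.Agent.P366N

open scoped Matrix ContDiff Topology
open Filter Set
open Vale.Agent.P366 (Pt rad pd Dat dot_pos dc_quad dc_trace dc_squeeze dc_abs_le)

theorem dc_eig {J : Fin 9 → Matrix (Fin 16) (Fin 16) ℝ} (h : IsCliff J) {x : Pt 16}
    (hx : x ≠ 0) (α β γ m : ℝ) (hN : ∀ i j, |blk J x α β γ i j| ≤ m) :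
    |α| ≤ 1280 * m ∧ |β| ≤ 1280 * m ∧ |γ| ≤ 1280 * m := by
  have ht := dot_pos hx
  have hm : 0 ≤ m := (abs_nonneg _).trans (hN 0 0)
  have h1 := dc_quad _ m hN x
  rw [blk_x h hx, dotProduct_smul, smul_eq_mul, abs_mul, abs_of_pos ht] at h1
  have ha := le_of_mul_le_mul_right h1 ht
  obtain ⟨u, hu⟩ : ∃ u : Pt 16, blk J x 0 0 1 *ᵥ u ≠ 0 := by
    by_contra hn
    have z : blk J x 0 0 1 = 0 := Matrix.ext_of_mulVec_single fun i => by
      rw [Matrix.zero_mulVec]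
      exact by_contra fun k => hn ⟨_, k⟩
    have := blk_trace h hx 0 0 1
    rw [z, Matrix.trace_zero] at this
    norm_num at this
  have hv := dot_pos hu
  have h2 := dc_quad _ m hN (blk J x 0 0 1 *ᵥ u)
  rw [blk_hor h hx (blk_hor_mem h hx u), dotProduct_smul, smul_eq_mul, abs_mul,
    abs_of_pos hv] at h2
  have hc := le_of_mul_le_mul_right h2 hv
  have h3 := dc_trace _ m hN
  rw [blk_trace h hx] at h3
  push_cast at ha hc h3
  refine ⟨by linarith, ?_, by linarith⟩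
  rw [abs_le] at ha hc h3 ⊢
  constructor <;> linarith [ha.1, ha.2, hc.1, hc.2, h3.1, h3.2]

theorem dc_point (hJ : JetStmt) (hD : DivStmt) {J : Fin 9 → Matrix (Fin 16) (Fin 16) ℝ}
    (h : IsCliff J) (D : Dat) (M τ : ℝ) (x : Pt 16) (hx : x ≠ 0)
    (hb : ∀ i j k : Fin 16,
      |hopf J D.A D.B D.C x i j - (if i = j then 1 else 0)| ≤ M * rad x ^ (-τ) ∧
      |pd k (fun y => hopf J D.A D.B D.C y i j) x| ≤ M * rad x ^ (-τ - 1) ∧
      |hopf J D.a D.b D.c x i j| ≤ M * rad x ^ (-1 - τ)) :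
    |D.A (x ⬝ᵥ x) - 1| ≤ (1280 * M) * rad x ^ (-τ) ∧
    |D.B (x ⬝ᵥ x) - 1| ≤ (1280 * M) * rad x ^ (-τ) ∧
    |D.C (x ⬝ᵥ x) - 1| ≤ (1280 * M) * rad x ^ (-τ) ∧
    |(x ⬝ᵥ x) * deriv D.B (x ⬝ᵥ x)| ≤ (1280 * (8 * M)) * rad x ^ (-τ) ∧
    |(x ⬝ᵥ x) * deriv D.C (x ⬝ᵥ x)| ≤ (1280 * (8 * M)) * rad x ^ (-τ) ∧
    |rad x * D.b (x ⬝ᵥ x)| ≤ (1280 * M) * rad x ^ (-τ) ∧
    |rad x * D.c (x ⬝ᵥ x)| ≤ (1280 * M) * rad x ^ (-τ) := by
  have ht := dot_pos hx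
  have hr : 0 < rad x := Real.sqrt_pos.2 ht
  have e1 : rad x * rad x ^ (-τ - 1) = rad x ^ (-τ) := by
    rw [Real.rpow_sub_one hr.ne']
    field_simp
  have e2 : rad x * rad x ^ (-1 - τ) = rad x ^ (-τ) := by
    rw [← e1]
    congr 2
    ring
  have dA : DifferentiableAt ℝ D.A (x ⬝ᵥ x) := (D.hA.differentiable (by simp)) _
  have dB : DifferentiableAt ℝ D.B (x ⬝ᵥ x) := (D.hB.differentiable (by simp)) _
  have dC : DifferentiableAt ℝ D.C (x ⬝ᵥ x) := (D.hC.differentiable (by simp)) _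
  have g1 := dc_eig h hx (D.A (x ⬝ᵥ x) - 1) (D.B (x ⬝ᵥ x) - 1) (D.C (x ⬝ᵥ x) - 1)
    (M * rad x ^ (-τ)) (fun i j => by
      rw [← blk_sub, blk_one, Matrix.sub_apply, Matrix.one_apply]
      exact (hb i j i).1)
  have g2 := dc_eig h hx ((x ⬝ᵥ x) * deriv D.A (x ⬝ᵥ x)) ((x ⬝ᵥ x) * deriv D.B (x ⬝ᵥ x))
    ((x ⬝ᵥ x) * deriv D.C (x ⬝ᵥ x)) ((8 * M) * rad x ^ (-τ)) (fun i j => by
      have e := (hD J x 0 0 0 (D.A (x ⬝ᵥ x)) (D.B (x ⬝ᵥ x)) (D.C (x ⬝ᵥ x))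
        (deriv D.A (x ⬝ᵥ x)) (deriv D.B (x ⬝ᵥ x)) (deriv D.C (x ⬝ᵥ x)) h hx).2 i j
      have hs : |∑ k, x k * Dm J x (D.A (x ⬝ᵥ x)) (D.B (x ⬝ᵥ x)) (D.C (x ⬝ᵥ x))
          (deriv D.A (x ⬝ᵥ x)) (deriv D.B (x ⬝ᵥ x)) (deriv D.C (x ⬝ᵥ x)) (Pi.single k 1) i j| ≤
          16 * (M * rad x ^ (-τ)) := by
        refine (Finset.abs_sum_le_sum_abs _ _).trans ?_
        refine (Finset.sum_le_sum (g := fun _ => M * rad x ^ (-τ)) fun k _ => ?_).trans ?_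
        · rw [← hJ J D.A D.B D.C x h hx dA dB dC i j k, abs_mul, ← e1]
          calc |x k| * |pd k (fun y => hopf J D.A D.B D.C y i j) x|
              ≤ rad x * (M * rad x ^ (-τ - 1)) :=
                mul_le_mul (dc_abs_le x k) (hb i j k).2.1 (abs_nonneg _) hr.le
            _ = M * (rad x * rad x ^ (-τ - 1)) := by ring
        · simp only [Finset.sum_const, Finset.card_univ, Fintype.card_fin, nsmul_eq_mul, Nat.cast_ofNat,
            le_refl]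
      rw [e, mul_assoc, abs_mul, abs_two] at hs
      rw [← blk_smul, Matrix.smul_apply, smul_eq_mul]
      linarith)
  have g3 := dc_eig h hx (rad x * D.a (x ⬝ᵥ x)) (rad x * D.b (x ⬝ᵥ x))
    (rad x * D.c (x ⬝ᵥ x)) (M * rad x ^ (-τ)) (fun i j => by
      rw [← blk_smul, Matrix.smul_apply, smul_eq_mul, abs_mul, abs_of_pos hr, ← e2]
      calc rad x * |blk J x (D.a (x ⬝ᵥ x)) (D.b (x ⬝ᵥ x)) (D.c (x ⬝ᵥ x)) i j|
          ≤ rad x * (M * rad x ^ (-1 - τ)) := mul_le_mul_of_nonneg_left (hb i j i).2.2 hr.le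
        _ = M * (rad x * rad x ^ (-1 - τ)) := by ring)
  refine ⟨?_, ?_, ?_, ?_, ?_, ?_, ?_⟩
  · linarith [g1.1]
  · linarith [g1.2.1]
  · linarith [g1.2.2]
  · linarith [g2.2.1]
  · linarith [g2.2.2]
  · linarith [g3.2.1]
  · linarith [g3.2.2]

theorem decay_pf (hJ : JetStmt) (hD : DivStmt) : DecayStmt := by
  intro J D R τ h _ hτ hdec
  obtain ⟨M, hM⟩ := hdec
  have hp : 2 * ((7 : ℝ) / 2) < τ := by linarith
  have key : ∀ᶠ t : ℝ in atTop,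
      |D.A t - 1| ≤ (1280 * M) * √t ^ (-τ) ∧
      |D.B t - 1| ≤ (1280 * M) * √t ^ (-τ) ∧
      |D.C t - 1| ≤ (1280 * M) * √t ^ (-τ) ∧
      |t * deriv D.B t| ≤ (1280 * (8 * M)) * √t ^ (-τ) ∧
      |t * deriv D.C t| ≤ (1280 * (8 * M)) * √t ^ (-τ) ∧
      |√t * D.b t| ≤ (1280 * M) * √t ^ (-τ) ∧
      |√t * D.c t| ≤ (1280 * M) * √t ^ (-τ) := by
    filter_upwards [eventually_gt_atTop (0 : ℝ), eventually_ge_atTop (R ^ 2)] with t ht hR
    let i0 : Fin 16 := 0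
    let x : Pt 16 := Pi.single i0 (√t)
    have hxx : x ⬝ᵥ x = t := by
      simp only [x, single_dotProduct, Pi.single_eq_same]
      exact Real.mul_self_sqrt ht.le
    have hx : x ≠ 0 := by
      intro h0
      rw [h0, dotProduct_zero] at hxx
      exact ht.ne hxx
    have hr : rad x = √t := by rw [rad, hxx]
    have hRx : R ≤ rad x := by
      rw [hr]
      exact Real.le_sqrt_of_sq_le hR
    have := dc_point hJ hD h D M τ x hx (fun i j k =>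
      ⟨(hM x hRx i j k k).1, (hM x hRx i j k k).2.1, (hM x hRx i j k k).2.2.2.1⟩)
    rwa [hxx, hr] at this
  refine ⟨dc_squeeze _ τ _ hp _ (key.mono fun t h => h.1),
    dc_squeeze _ τ _ hp _ (key.mono fun t h => h.2.1),
    dc_squeeze _ τ _ hp _ (key.mono fun t h => h.2.2.1),
    dc_squeeze _ τ _ hp _ (key.mono fun t h => h.2.2.2.1),
    dc_squeeze _ τ _ hp _ (key.mono fun t h => h.2.2.2.2.1),
    dc_squeeze _ τ _ hp _ (key.mono fun t h => h.2.2.2.2.2.1),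
    dc_squeeze _ τ _ hp _ (key.mono fun t h => h.2.2.2.2.2.2)⟩

end Vale.Agent.P366N
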