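import Vale.Agent.P366N.Stm2

/-! The determinant of a block matrix and a Cauchy-Schwarz inequality (`Spin(9)` case). -/

namespace Vale.Agent.P366N

open scoped Matrix
open Vale.Agent.P366 (Pt pr0 dot_pos sum_mul_mul)

theorem det_frame {ι : Type} [Fintype ι] [DecidableEq ι] (z : ι → Pt 16) {t : ℝ} (ht : t ≠ 0)
    (hz : ∀ i j, z i ⬝ᵥ z j = if i = j then t else 0) (s : ℝ) :
    (1 + (s / t) • ∑ i, Matrix.vecMulVec (z i) (z i)).det = (1 + s) ^ Fintype.card ι := by
  let U : Matrix (Fin 16) ι ℝ := Matrix.of fun i o => z o i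
  let V : Matrix ι (Fin 16) ℝ := Matrix.of fun o j => s / t * z o j
  have e1 : (s / t) • ∑ i, Matrix.vecMulVec (z i) (z i) = U * V := by
    ext i j
    simp only [Matrix.smul_apply, Matrix.mul_apply, Matrix.sum_apply, Matrix.vecMulVec_apply,
      smul_eq_mul, U, V, Matrix.of_apply, Finset.mul_sum]
    exact Finset.sum_congr rfl fun o _ => by ring
  have e2 : 1 + V * U = Matrix.diagonal fun _ : ι => 1 + s := by
    ext o o'
    have e : (V * U) o o' = s / t * (z o ⬝ᵥ z o') := by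
      simp only [Matrix.mul_apply, U, V, Matrix.of_apply, dotProduct, Finset.mul_sum, mul_assoc]
    rw [Matrix.add_apply, e, hz]
    by_cases h : o = o'
    · subst h
      rw [Matrix.one_apply_eq, Matrix.diagonal_apply_eq, if_pos rfl, div_mul_cancel₀ _ ht]
    · rw [Matrix.one_apply_ne h, Matrix.diagonal_apply_ne _ h, if_neg h, mul_zero, add_zero]
  rw [e1, Matrix.det_one_add_mul_comm, e2, Matrix.det_diagonal, Finset.prod_const,
    Finset.card_univ]

theorem det_pf : DetStmt := by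
  intro J x A B C h hx hC
  have ht := (dot_pos hx).ne'
  have d1 : ∀ a : ℝ, (blk J x a 1 1).det = a := fun a => by
    have e := det_frame (fun _ : Unit => x) ht (fun _ _ => (if_pos rfl).symm) (a - 1)
    rw [Fintype.sum_unique, Fintype.card_unit, pow_one, add_sub_cancel] at e
    rw [blk_eq, sub_self, zero_smul, add_zero, one_smul, e]
  have d2 : ∀ c : ℝ, (blk J x c 1 c).det = c ^ 9 := fun c => by
    have e := det_frame (fun i => J i *ᵥ x) ht (fun i j => h.dot_zz i j x) (c - 1)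
    rw [fierz h hx, Fintype.card_fin, add_sub_cancel, smul_add, smul_smul,
      div_mul_cancel₀ _ ht] at e
    have e' : blk J x c 1 c = 1 + (((c - 1) / (x ⬝ᵥ x)) • Matrix.vecMulVec x x +
        (c - 1) • (1 - prL J x)) := by
      rw [blk_eq]
      module
    rw [e', e]
  have d3 : ∀ b : ℝ, b ≠ 0 → (blk J x A b C).det = A * b ^ 7 * C ^ 8 := fun b hb => by
    have e : blk J x A b C = b • (blk J x (C / b) 1 (C / b) * blk J x (A / C) 1 1) := by
      rw [blk_mul h hx, blk_smul]
      congr 1 <;> field_simp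
    rw [e, Matrix.det_smul, Matrix.det_mul, d1, d2, Fintype.card_fin]
    field_simp
  have c1 : Continuous fun b : ℝ => (blk J x A b C).det := by
    refine Continuous.matrix_det ?_
    unfold blk
    fun_prop
  have c2 : Continuous fun b : ℝ => A * b ^ 7 * C ^ 8 := by fun_prop
  exact congrFun (Continuous.ext_on (dense_compl_singleton 0) c1 c2 fun b hb => d3 b hb) B

theorem cs_pf : CsStmt := by
  intro J x v A B C h hx hA hB hC
  have ht := dot_pos hx
  have e1 : blk J x A⁻¹ B⁻¹ C⁻¹ =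
      blk J x A⁻¹ 0 0 + blk J x 0 √B⁻¹ √C⁻¹ * blk J x 0 √B⁻¹ √C⁻¹ := by
    rw [blk_mul h hx, blk_add, Real.mul_self_sqrt (by positivity),
      Real.mul_self_sqrt (by positivity)]
    simp
  have e2 : v ⬝ᵥ (blk J x A⁻¹ 0 0 *ᵥ v) = (v ⬝ᵥ x) ^ 2 / ((x ⬝ᵥ x) * A) := by
    rw [blk_mulVec]
    simp only [sub_zero, zero_smul, add_zero, zero_add, dotProduct_smul, smul_eq_mul,
      dotProduct_comm x v]
    field_simp
  have e3 : 0 ≤ v ⬝ᵥ ((blk J x 0 √B⁻¹ √C⁻¹ * blk J x 0 √B⁻¹ √C⁻¹) *ᵥ v) := by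
    rw [← Matrix.mulVec_mulVec, Matrix.dotProduct_mulVec, ← Matrix.mulVec_transpose, blk_T h]
    exact Finset.sum_nonneg fun i _ => mul_self_nonneg _
  rw [blk_inv h hx hA.ne' hB.ne' hC.ne', sum_mul_mul, e1, Matrix.add_mulVec, dotProduct_add, e2]
  refine Real.le_sqrt_of_sq_le ?_
  rw [div_pow, sq_abs, Real.sq_sqrt (by positivity)]
  exact le_add_of_nonneg_right e3

end Vale.Agent.P366N
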