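import Vale.Agent.P366N.Stm2

/-! Contractions of the Christoffel symbols and of the first jet with the position vector. -/

namespace Vale.Agent.P366N

open scoped Matrix
open Matrix
open Vale.Agent.P366 (Pt dot_pos sum_mul_trace)

namespace GxDivAux

variable {J : Fin 9 → Matrix (Fin 16) (Fin 16) ℝ}

theorem dot_blk (h : IsCliff J) {x : Pt 16} (hx : x ≠ 0) (A B C : ℝ) (u : Pt 16) :
    (blk J x A B C *ᵥ u) ⬝ᵥ x = A * (x ⬝ᵥ u) := by
  rw [dotProduct_comm, Matrix.dotProduct_mulVec, ← Matrix.mulVec_transpose, blk_T h, blk_x h hx,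
    smul_dotProduct, smul_eq_mul]

theorem zsum (h : IsCliff J) {x : Pt 16} (hx : x ≠ 0) (u : Pt 16) :
    ∑ i, ((J i *ᵥ x) ⬝ᵥ u) • (J i *ᵥ x) =
      (x ⬝ᵥ u) • x + (x ⬝ᵥ x) • (u - prL J x *ᵥ u) := by
  have e := congrArg (fun M => M *ᵥ u) (fierz h hx)
  simpa only [Matrix.sum_mulVec, Matrix.add_mulVec, Matrix.smul_mulVec, Matrix.sub_mulVec,
    Matrix.one_mulVec, Matrix.vecMulVec_mulVec, op_smul_eq_smul] using e

theorem bm_x (h : IsCliff J) {x : Pt 16} (hx : x ≠ 0) (u : Pt 16) :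
    Bm J x u *ᵥ x = (x ⬝ᵥ u) • x + ((x ⬝ᵥ u) • x + (x ⬝ᵥ x) • (u - prL J x *ᵥ u)) := by
  rw [← zsum h hx]
  simp only [Bm, Matrix.sum_mulVec, Matrix.add_mulVec, Matrix.smul_mulVec, Matrix.one_mulVec]

theorem emT_x (h : IsCliff J) {x : Pt 16} (hx : x ≠ 0) (u : Pt 16) :
    (Em J x u)ᵀ *ᵥ x = Bm J x u *ᵥ x := by
  have e : ∀ i, (J i *ᵥ u) ⬝ᵥ x = (J i *ᵥ x) ⬝ᵥ u := fun i => by
    rw [h.symm_dot, dotProduct_comm]
  rw [bm_x h hx, ← zsum h hx]
  simp only [Em, Matrix.transpose_add, Matrix.transpose_sum, Matrix.transpose_vecMulVec,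
    Matrix.sum_mulVec, Matrix.add_mulVec, Matrix.vecMulVec_mulVec, op_smul_eq_smul, e,
    dotProduct_comm u x]

theorem tm_x (hb : BmStmt) (h : IsCliff J) {x : Pt 16} (hx : x ≠ 0) (A B C A' B' C' : ℝ)
    (u : Pt 16) : Tm J x A B C A' B' C' u *ᵥ x = (x ⬝ᵥ x) • (blk J x A' B' C' *ᵥ u) := by
  have ht := (dot_pos hx).ne'
  obtain ⟨b1, -, b3, -⟩ := hb J x h hx
  simp only [Tm, Matrix.add_mulVec, Matrix.sub_mulVec, Matrix.smul_mulVec, emT_x h hx, b3, b1,
    Matrix.vecMulVec_mulVec, op_smul_eq_smul, blk_x h hx, dot_blk h hx, dotProduct_comm u x]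
  simp only [blk_mulVec]
  match_scalars <;> field_simp <;> ring

theorem dm_x (h : IsCliff J) {x : Pt 16} (hx : x ≠ 0) (A B C A' B' C' : ℝ) (u : Pt 16) :
    Dm J x A B C A' B' C' u *ᵥ x = blk J x (2 * (x ⬝ᵥ x) * A') (A - B) (A - C) *ᵥ u := by
  have ht := (dot_pos hx).ne'
  simp only [Dm, Matrix.add_mulVec, Matrix.smul_mulVec, Matrix.vecMulVec_mulVec, op_smul_eq_smul,
    blk_x h hx, dotProduct_comm u x, bm_x h hx]
  simp only [blk_mulVec]
  match_scalars <;> field_simp <;> ring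

/-- `Dm` as a linear map. -/
noncomputable def DL (J : Fin 9 → Matrix (Fin 16) (Fin 16) ℝ) (x : Pt 16) (A B C A' B' C' : ℝ) :
    Pt 16 →ₗ[ℝ] Matrix (Fin 16) (Fin 16) ℝ where
  toFun := Dm J x A B C A' B' C'
  map_add' u v := by
    simp only [Dm, Bm, dotProduct_add, add_smul, Finset.sum_add_distrib, Matrix.add_vecMulVec,
      Matrix.vecMulVec_add]
    module
  map_smul' c u := by
    simp only [Dm, Bm, dotProduct_smul, Matrix.smul_vecMulVec, Matrix.vecMulVec_smul,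
      RingHom.id_apply, smul_eq_mul, mul_smul, ← Finset.smul_sum]
    module

theorem dm_self (hb : BmStmt) (h : IsCliff J) {x : Pt 16} (hx : x ≠ 0) (A B C A' B' C' : ℝ) :
    Dm J x A B C A' B' C' x = (2 * (x ⬝ᵥ x)) • blk J x A' B' C' := by
  have ht := (dot_pos hx).ne'
  simp only [Dm, blk_eq, (hb J x h hx).1]
  match_scalars <;> field_simp <;> ring

end GxDivAux

open GxDivAux

theorem gx_pf (hb : BmStmt) (_h : TmStmt) : GxStmt := by
  intro J x A B C A' B' C' h hx hA hB hC k i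
  have e : Gam J x A B C A' B' C' (Pi.single i 1) *ᵥ x =
      (x ⬝ᵥ x) • (blk J x (A' / A) (B' / B) (C' / C) *ᵥ Pi.single i 1) := by
    rw [Gam, ← Matrix.mulVec_mulVec, tm_x hb h hx, Matrix.mulVec_smul, Matrix.mulVec_mulVec,
      blk_mul h hx, inv_mul_eq_div, inv_mul_eq_div, inv_mul_eq_div]
  have e2 := congrFun e k
  simpa [Matrix.mulVec, dotProduct, Pi.single_apply] using e2

theorem div_pf (hb : BmStmt) : DivStmt := by
  intro J x α β γ A B C A' B' C' h hx
  constructor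
  · have e : ∀ i k, ∑ j, blk J x α β γ i k * Dm J x A B C A' B' C' (Pi.single i 1) k j * x j =
        blk J x α β γ i k * blk J x (2 * (x ⬝ᵥ x) * A') (A - B) (A - C) i k := by
      intro i k
      have e2 := congrFun (dm_x h hx A B C A' B' C' (Pi.single i 1)) k
      rw [Matrix.mulVec_single_one, Matrix.col_apply, blk_symm h] at e2
      rw [← e2]
      simp only [Matrix.mulVec, dotProduct, Finset.mul_sum, mul_assoc]
    simp only [e]
    rw [sum_mul_trace, blk_T h, blk_mul h hx, blk_trace h hx]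
    ring
  · intro i j
    have e : Dm J x A B C A' B' C' x = ∑ k, x k • Dm J x A B C A' B' C' (Pi.single k 1) := by
      change DL J x A B C A' B' C' x = ∑ k, x k • DL J x A B C A' B' C' (Pi.single k 1)
      simp only [← map_smul, ← map_sum]
      rw [← pi_eq_sum_univ' x]
    have e2 := congrFun (congrFun (e.symm.trans (dm_self hb h hx A B C A' B' C')) i) j
    simpa [Matrix.sum_apply] using e2

end Vale.Agent.P366N
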