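import Vale.Agent.P366N.Stm2
import Vale.Agent.P366.Jet

/-! First derivatives and smoothness of the ansatz (`Spin(9)` case). -/

namespace Vale.Agent.P366N

open scoped Matrix ContDiff Topology
open Filter Set
open Vale.Agent.P366 (Pt Ten pd pr0 JHD jet_dot_ne)

namespace JetAux

lemma jblk (J : Fin 9 → Matrix (Fin 16) (Fin 16) ℝ) (y : Pt 16) (A B C : ℝ) (i j : Fin 16) :
    blk J y A B C i j = A * ((y ⬝ᵥ y)⁻¹ * (y i * y j))
      + B * (1 / 2 * ((1 : Matrix (Fin 16) (Fin 16) ℝ) i j +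
          (y ⬝ᵥ y)⁻¹ * ∑ a, (y ⬝ᵥ (J a *ᵥ y)) * J a i j) - (y ⬝ᵥ y)⁻¹ * (y i * y j))
      + C * ((1 : Matrix (Fin 16) (Fin 16) ℝ) i j - 1 / 2 * ((1 : Matrix (Fin 16) (Fin 16) ℝ) i j +
          (y ⬝ᵥ y)⁻¹ * ∑ a, (y ⬝ᵥ (J a *ᵥ y)) * J a i j)) := by
  simp only [blk, pr0, prL, Matrix.add_apply, Matrix.sub_apply, Matrix.smul_apply,
    Matrix.sum_apply, Matrix.vecMulVec_apply, smul_eq_mul]

lemma quad {J : Fin 9 → Matrix (Fin 16) (Fin 16) ℝ} (h : IsCliff J) (a : Fin 9) (x u : Pt 16) :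
    JHD (fun y => y ⬝ᵥ (J a *ᵥ y)) x u (2 * ((J a *ᵥ x) ⬝ᵥ u)) := by
  refine (JHD.sum Finset.univ fun l =>
    (JHD.app (x := x) (u := u) l).mul (JHD.mv (J a) l)).congr ?_
  rw [Finset.sum_add_distrib, two_mul]
  exact congrArg₂ (· + ·) (h.symm_dot a x u).symm rfl

lemma quadS {J : Fin 9 → Matrix (Fin 16) (Fin 16) ℝ} (h : IsCliff J) (x u : Pt 16)
    (i j : Fin 16) : JHD (fun y => ∑ a, (y ⬝ᵥ (J a *ᵥ y)) * J a i j) x u
      (2 * ∑ a, ((J a *ᵥ x) ⬝ᵥ u) * J a i j) := by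
  refine (JHD.sum Finset.univ fun a => (quad h a x u).mul (JHD.const (J a i j))).congr ?_
  rw [Finset.mul_sum]
  exact Finset.sum_congr rfl fun a _ => by ring

end JetAux

open JetAux

theorem jet_pf : JetStmt := by
  intro J A B C x h hx hA hB hC i j k
  have ht := jet_dot_ne hx
  set u : Pt 16 := Pi.single k 1 with hu
  have d0 : JHD (fun y => y ⬝ᵥ y) x u (2 * (x ⬝ᵥ u)) := JHD.dot
  have dA := d0.comp hA.hasDerivAt
  have dB := d0.comp hB.hasDerivAt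
  have dC := d0.comp hC.hasDerivAt
  have dI := d0.comp (hasDerivAt_inv ht)
  have dP := dI.mul ((JHD.app (x := x) (u := u) i).mul (JHD.app j))
  have dQ := (JHD.const (1 / 2 : ℝ)).mul
    ((JHD.const ((1 : Matrix (Fin 16) (Fin 16) ℝ) i j)).add (dI.mul (quadS h x u i j)))
  have dT := ((dA.mul dP).add (dB.mul (dQ.sub dP))).add
    (dC.mul ((JHD.const ((1 : Matrix (Fin 16) (Fin 16) ℝ) i j)).sub dQ))
  have e : (fun y => hopf J A B C y i j) = _ := funext fun y => jblk J y _ _ _ i j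
  rw [e, dT.pd_eq]
  simp only [Dm, Bm, Matrix.add_apply, Matrix.smul_apply, Matrix.vecMulVec_apply,
    Matrix.sum_apply, smul_eq_mul, jblk]
  field_simp
  ring

theorem smooth_pf : SmoothStmt := by
  intro J A B C x hx hA hB hC i j
  have ht := jet_dot_ne hx
  have ap : ∀ l : Fin 16, ContDiffAt ℝ 2 (fun y : Pt 16 => y l) x := fun l =>
    (contDiff_apply ℝ ℝ l).contDiffAt
  have d0 : ContDiffAt ℝ 2 (fun y : Pt 16 => y ⬝ᵥ y) x :=
    ContDiffAt.sum fun l _ => (ap l).mul (ap l)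
  have mv : ∀ (a : Fin 9) (l : Fin 16), ContDiffAt ℝ 2 (fun y : Pt 16 => (J a *ᵥ y) l) x :=
    fun a l => ContDiffAt.sum (s := Finset.univ) (f := fun m (y : Pt 16) => J a l m * y m)
      fun m _ => contDiffAt_const.mul (ap m)
  have qd : ∀ a : Fin 9, ContDiffAt ℝ 2 (fun y : Pt 16 => y ⬝ᵥ (J a *ᵥ y)) x :=
    fun a => ContDiffAt.sum fun l _ => (ap l).mul (mv a l)
  have h2 : (2 : WithTop ℕ∞) ≤ ∞ := WithTop.coe_le_coe.2 (le_top (a := (2 : ℕ∞)))
  have dA := (hA.of_le h2).contDiffAt.comp x d0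
  have dB := (hB.of_le h2).contDiffAt.comp x d0
  have dC := (hC.of_le h2).contDiffAt.comp x d0
  have dI := d0.inv ht
  have dP := dI.mul ((ap i).mul (ap j))
  have dQ := (contDiffAt_const (c := (1 / 2 : ℝ))).mul
    ((contDiffAt_const (c := (1 : Matrix (Fin 16) (Fin 16) ℝ) i j)).add
      (dI.mul (ContDiffAt.sum (s := Finset.univ) fun a _ =>
        (qd a).mul (contDiffAt_const (c := J a i j)))))
  have dT := ((dA.mul dP).add (dB.mul (dQ.sub dP))).add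
    (dC.mul ((contDiffAt_const (c := (1 : Matrix (Fin 16) (Fin 16) ℝ) i j)).sub dQ))
  have e : (fun y => hopf J A B C y i j) = _ := funext fun y => jblk J y _ _ _ i j
  rw [e]
  exact dT

end Vale.Agent.P366N
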