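import Vale.Agent.P366N.Stm2
import Vale.Agent.P366.Lim

/-! The limit of the mass at infinity. -/

namespace Vale.Agent.P366N

open scoped Matrix ContDiff Topology
open Filter Set
open Vale.Agent.P366 (Dat ll)
open Vale.Agent.P366.LimAux (to_zero to_one sq_one sq_dec mass_alg)

namespace LimAux

/-- The second order remainder. -/
noncomputable def rem (x y z u v a b C : ℝ) : ℝ :=
  11 * y ^ 2 * (b + 2) / (2 * b) + 4 * (-(y * z) / C - y ^ 2 / 2 + z ^ 2 / C)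
    - 15 * x ^ 2 * (a + 2) / (2 * a) + 7 * u * (y * (b + 1) * a + x) / (b ^ 2 * a)
    + 8 * v * (z * a + x) / (C * a)

theorem rem_eq (T a b C β γ : ℝ) (ha : a ≠ 0) (hb : b ≠ 0) (hC : C ≠ 0) :
    T * T * ((11 / b + 4 * b / C) - (7 * (1 + β / b ^ 2) + 8 * (1 + γ / C)) / a) =
      rem (T * (a - 1)) (T * (b - 1)) (T * (C - 1)) (T * β) (T * γ) a b C
        + T * T * (8 * (a ^ 2 - C) + 7 * (a ^ 2 - b ^ 2) - 2 * (7 * β + 8 * γ)) / 2 := by
  unfold rem
  field_simp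
  ring

theorem rem_lim {x y z u v a b C : ℝ → ℝ} (hx : Tendsto x atTop (𝓝 0))
    (hy : Tendsto y atTop (𝓝 0)) (hz : Tendsto z atTop (𝓝 0)) (hu : Tendsto u atTop (𝓝 0))
    (hv : Tendsto v atTop (𝓝 0)) (ha : Tendsto a atTop (𝓝 1)) (hb : Tendsto b atTop (𝓝 1))
    (hC : Tendsto C atTop (𝓝 1)) :
    Tendsto (fun t => rem (x t) (y t) (z t) (u t) (v t) (a t) (b t) (C t)) atTop (𝓝 0) := by
  have h1 := (((hy.pow 2).const_mul 11).mul (hb.add_const 2)).div (hb.const_mul 2)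
    (by norm_num)
  have h2 := ((((hy.mul hz).neg.div hC one_ne_zero).sub ((hy.pow 2).div_const 2)).add
    ((hz.pow 2).div hC one_ne_zero)).const_mul 4
  have h3 := (((hx.pow 2).const_mul 15).mul (ha.add_const 2)).div (ha.const_mul 2)
    (by norm_num)
  have h4 := ((hu.const_mul 7).mul (((hy.mul (hb.add_const 1)).mul ha).add hx)).div
    ((hb.pow 2).mul ha) (by norm_num)
  have h5 := ((hv.const_mul 8).mul ((hz.mul ha).add hx)).div (hC.mul ha) (by norm_num)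
  have h6 := (((h1.add h2).sub h3).add h4).add h5
  simp only [ne_eq, OfNat.ofNat_ne_zero, not_false_eq_true, zero_pow, mul_zero, zero_mul, zero_div,
    neg_zero, sub_zero, add_zero] at h6
  exact h6

theorem tt_eq (t : ℝ) (ht : 0 < t) : t ^ ((7 : ℝ) / 2) * t ^ ((7 : ℝ) / 2) = √t ^ 14 := by
  rw [← Real.rpow_add ht, Real.sqrt_eq_rpow, ← Real.rpow_natCast, ← Real.rpow_mul ht.le]
  exact congrArg (fun s : ℝ => t ^ s) (by norm_num)

theorem ar_eq (r S : ℝ) (hr : 0 < r) (hS : 0 ≤ S) :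
    (r ^ 15 * S) ^ ((14 : ℝ) / 15) = r ^ 14 * S ^ ((14 : ℝ) / 15) := by
  rw [Real.mul_rpow (pow_pos hr _).le hS, ← Real.rpow_natCast r 15, ← Real.rpow_mul hr.le,
    ← Real.rpow_natCast r 14]
  exact congrArg (fun s : ℝ => r ^ s * S ^ ((14 : ℝ) / 15)) (by norm_num)

end LimAux

open LimAux

theorem lim_pf : LimStmt := by
  rintro D E ⟨hA, hB, hC, hB', hC', hb, hc⟩ hE
  have hT : Tendsto (fun t : ℝ => t ^ ((7 : ℝ) / 2)) atTop atTop :=
    tendsto_rpow_atTop (by norm_num)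
  have A1 := to_one hT hA
  have B1 := to_one hT hB
  have C1 := to_one hT hC
  have sA := sq_one A1
  have sB := sq_one B1
  have hR := rem_lim (sq_dec hT hA) (sq_dec hT hB) hC hB' hC' sA sB C1
  have hw : Tendsto (fun t => 11 / √(D.B t) + 4 * √(D.B t) / D.C t) atTop (𝓝 15) := by
    have := ((tendsto_const_nhds (x := (11 : ℝ))).div sB one_ne_zero).add
      ((sB.const_mul 4).div C1 one_ne_zero)
    rw [show (11 : ℝ) / 1 + 4 * 1 / 1 = 15 by norm_num] at this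
    exact this
  have hH : Tendsto (fun t => hh D t / √(D.A t)) atTop (𝓝 15) := by
    have := ((((((to_zero hT hB').div B1 one_ne_zero).const_add 1).const_mul 7).add
      ((((to_zero hT hC').div C1 one_ne_zero).const_add 1).const_mul 8)).div sA one_ne_zero)
    rw [show ((7 : ℝ) * (1 + 0 / 1) + 8 * (1 + 0 / 1)) / 1 = 15 by norm_num] at this
    exact this
  have hP := ((hb.div B1 one_ne_zero).const_mul 7).add ((hc.div C1 one_ne_zero).const_mul 8)
  have hS : Tendsto (fun t => √(D.B t ^ 7 * D.C t ^ 8) ^ ((14 : ℝ) / 15)) atTop (𝓝 1) := by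
    have h1 : Tendsto (fun t => D.B t ^ 7 * D.C t ^ 8) atTop (𝓝 1) := by
      simpa using (B1.pow 7).mul (C1.pow 8)
    simpa using (sq_one h1).rpow_const (p := (14 : ℝ) / 15) (Or.inl one_ne_zero)
  have key := (hS.const_mul (1 / 2)).mul ((((hR.add (hE.const_mul 15)).mul (hw.add hH)).add
    (hP.pow 2)).div (hw.pow 2) (by norm_num))
  have hval : 1 / 2 * 1 * (((0 + 15 * E) * (15 + 15) +
      (7 * (0 / 1) + 8 * (0 / 1)) ^ 2) / 15 ^ 2) = E := by
    ring
  rw [hval] at key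
  refine key.congr' ?_
  have one : (0 : ℝ) < 1 := one_pos
  filter_upwards [eventually_gt_atTop (0 : ℝ), A1.eventually_const_lt one,
    B1.eventually_const_lt one, C1.eventually_const_lt one] with t ht hAt hBt hCt
  have hr : 0 < √t := Real.sqrt_pos.2 ht
  have ha : 0 < √(D.A t) := Real.sqrt_pos.2 hAt
  have hb0 : 0 < √(D.B t) := Real.sqrt_pos.2 hBt
  have hw0 : 0 < 11 / √(D.B t) + 4 * √(D.B t) / D.C t := by positivity
  have eH : H1 D t = hh D t / √(D.A t) / √t := by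
    unfold H1
    rw [Real.sqrt_mul ht.le, div_div, mul_comm]
  have eR := rem_eq (t ^ ((7 : ℝ) / 2)) (√(D.A t)) (√(D.B t)) (D.C t) (t * deriv D.B t)
    (t * deriv D.C t) ha.ne' hb0.ne' hCt.ne'
  rw [Real.sq_sqrt hAt.le, Real.sq_sqrt hBt.le] at eR
  unfold mass ar1 w1
  rw [ar_eq _ _ hr (Real.sqrt_nonneg _), eH]
  simp only [Pi.div_apply]
  rw [← tt_eq t ht, mass_alg _ _ _ _ _ _ hr.ne' hw0.ne']
  have e1 : t ^ ((7 : ℝ) / 2) * t ^ ((7 : ℝ) / 2) *
      (11 / √(D.B t) + 4 * √(D.B t) / D.C t - hh D t / √(D.A t)) =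
      rem (t ^ ((7 : ℝ) / 2) * (√(D.A t) - 1)) (t ^ ((7 : ℝ) / 2) * (√(D.B t) - 1))
        (t ^ ((7 : ℝ) / 2) * (D.C t - 1)) (t ^ ((7 : ℝ) / 2) * (t * deriv D.B t))
        (t ^ ((7 : ℝ) / 2) * (t * deriv D.C t)) (√(D.A t)) (√(D.B t)) (D.C t) +
      15 * (t ^ ((7 : ℝ) / 2) * t ^ ((7 : ℝ) / 2) * F1 D t / 30) := by
    unfold hh ll
    rw [eR]
    unfold F1
    ring
  have e2 : t ^ ((7 : ℝ) / 2) * √t * PP D t =
      7 * (t ^ ((7 : ℝ) / 2) * (√t * D.b t) / D.B t) +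
        8 * (t ^ ((7 : ℝ) / 2) * (√t * D.c t) / D.C t) := by
    unfold PP
    ring
  rw [e1, e2]

end Vale.Agent.P366N
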