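import Vale.Agent.P366N.Stm2

/-! The algebraic inequality behind the monotonicity of the mass. -/

namespace Vale.Agent.P366N

theorem monoAlg_core {H u w v x S R E us ws : ℝ} (hH : 0 < H) (hu : 0 ≤ u)
    (hw : 0 < w) (huw : u ≤ w ^ 2) (hS : u * x ^ 2 ≤ H * S) (hE : 0 ≤ E)
    (hus : 15 * us = 15 * H * R - E - H * u * 16 - 56 * S)
    (hws : 15 * ws = -(w * H) + x * v)
    (hR : v ^ 2 ≤ 56 * (14 * w ^ 2 - 15 * R)) :
    0 ≤ 14 * H * (w ^ 2 - u) * w - 15 * us * w + 2 * u * (15 * ws) := by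
  have e : 14 * H * (w ^ 2 - u) * w - 15 * us * w + 2 * u * (15 * ws) =
      H * w * (14 * w ^ 2 - 15 * R) + E * w + 56 * S * w + 2 * u * x * v := by
    rw [hus, hws]
    ring
  rw [e]
  generalize 14 * w ^ 2 - 15 * R = T at hR
  have p : 0 < 56 * w * H := by positivity
  refine (mul_nonneg_iff_of_pos_left p).1 ?_
  have a1 : 0 ≤ (56 * w) ^ 2 * (H * S - u * x ^ 2) :=
    mul_nonneg (sq_nonneg _) (sub_nonneg.2 hS)
  have a2 : 0 ≤ 56 * w * H * (E * w) := by positivity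
  have a3 : 0 ≤ u * (56 * w * x + v * H) ^ 2 := by positivity
  have a4 : 0 ≤ (w ^ 2 - u) * (v * H) ^ 2 := mul_nonneg (sub_nonneg.2 huw) (sq_nonneg _)
  have a5 : 0 ≤ (H * w) ^ 2 * (56 * T - v ^ 2) := mul_nonneg (sq_nonneg _) (sub_nonneg.2 hR)
  have e2 : 56 * w * H * (H * w * T + E * w + 56 * S * w + 2 * u * x * v) =
      (56 * w) ^ 2 * (H * S - u * x ^ 2) + 56 * w * H * (E * w) +
        u * (56 * w * x + v * H) ^ 2 + (w ^ 2 - u) * (v * H) ^ 2 +
        (H * w) ^ 2 * (56 * T - v ^ 2) := by ring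
  rw [e2]
  positivity

theorem monoAlg_pf : MonoAlgStmt := by
  intro X Y l1 l2 k0 k1 k2 Hs Ps H P w ws u us μ j hX hY hH hP hμ hj hw hws hu hus hd hp hm huw
  have hw0 : 0 < w := by
    rw [hw]
    positivity
  have hH0 : 0 < H := by linarith
  have hu0 : 0 ≤ u := by
    have : u = (H + P) * (H - P) := by
      rw [hu]
      ring
    rw [this]
    positivity
  obtain ⟨d1, d2⟩ := abs_le.1 hd
  have hE : 0 ≤ 15 * ((μ + j) * (H - P) + (μ - j) * (H + P)) :=
    mul_nonneg (by positivity) (add_nonneg (mul_nonneg (by linarith) hm.le)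
      (mul_nonneg (by linarith) hp.le))
  have key := monoAlg_core (x := l1 - l2) (v := 88 * (Y - X)) (us := us) (ws := ws)
    (S := ((H - P) * (l1 - l2 + (k1 - k2)) ^ 2 + (H + P) * (l1 - l2 - (k1 - k2)) ^ 2) / 2)
    (R := 42 * X ^ 2 + 224 * (X * Y) - 56 * Y ^ 2) hH0 hu0 hw0 huw
    (by
      have := sq_nonneg ((H - P) * (l1 - l2 + (k1 - k2)) - (H + P) * (l1 - l2 - (k1 - k2)))
      have e : H * (((H - P) * (l1 - l2 + (k1 - k2)) ^ 2 +
          (H + P) * (l1 - l2 - (k1 - k2)) ^ 2) / 2) - u * (l1 - l2) ^ 2 =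
          ((H - P) * (l1 - l2 + (k1 - k2)) - (H + P) * (l1 - l2 - (k1 - k2))) ^ 2 / 4 := by
        rw [hu]
        ring
      linarith) hE
    (by
      rw [hus, hμ, hj, hu, hH, hP]
      ring)
    (by
      rw [hws, hw, hH]
      ring)
    (by
      have e : 56 * (14 * w ^ 2 - 15 * (42 * X ^ 2 + 224 * (X * Y) - 56 * Y ^ 2)) -
          (88 * (Y - X)) ^ 2 = 51840 * (X - Y) ^ 2 := by
        rw [hw]
        ring
      have : 0 ≤ 51840 * (X - Y) ^ 2 := by positivity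
      linarith)
  have e : 14 / 15 * H * (1 - u / w ^ 2) - us / w ^ 2 + 2 * u * ws / w ^ 3 =
      (14 * H * (w ^ 2 - u) * w - 15 * us * w + 2 * u * (15 * ws)) / (15 * w ^ 3) := by
    field_simp
  rw [e]
  positivity

end Vale.Agent.P366N
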