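import Vale.Agent.P366N.Stm2
import Vale.Agent.P366.Ode

/-! The one-variable argument. -/

namespace Vale.Agent.P366N

open scoped Matrix ContDiff Topology
open Filter Set
open Vale.Agent.P366 (Dat ll ode_last ode_ll)

theorem ode_pf (hM : MonoStmt) (hC : P366.ContStmt) (hL : LimStmt) (hE : EvPosStmt) :
    OdeStmt := by
  intro D t0 E h0 hp hd hi ha hF
  have ht : ∀ t ∈ Ici t0, 0 < t := fun t h => h0.trans_le h
  have cA := D.hA.continuous
  have cB := D.hB.continuous
  have cC := D.hC.continuous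
  have c1 : ContinuousOn (H1 D) (Ici t0) :=
    ((continuousOn_const.mul (ode_ll D.hB fun t h => (hp t h).2.1)).add
      (continuousOn_const.mul (ode_ll D.hC fun t h => (hp t h).2.2))).div (by fun_prop)
      fun t h => (Real.sqrt_pos.2 (mul_pos (ht t h) (hp t h).1)).ne'
  have c2 : ContinuousOn (PP D) (Ici t0) :=
    (continuousOn_const.mul (D.hb.continuous.continuousOn.div cB.continuousOn
      fun t h => (hp t h).2.1.ne')).add (continuousOn_const.mul
        (D.hc.continuous.continuousOn.div cC.continuousOn fun t h => (hp t h).2.2.ne'))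
  have c3 : ContinuousOn (w1 D) (Ici t0) :=
    ((continuousOn_const.div (by fun_prop) fun t h => (Real.sqrt_pos.2 (hp t h).2.1).ne').add
      (ContinuousOn.div (by fun_prop) cC.continuousOn fun t h => (hp t h).2.2.ne')).div
      (by fun_prop) fun t h => (Real.sqrt_pos.2 (ht t h)).ne'
  have c4 : Continuous (ar1 D) := by
    unfold ar1
    fun_prop
  have p3 : ∀ t ∈ Ici t0, 0 < w1 D t := fun t h => by
    obtain ⟨-, a1, a2⟩ := hp t h
    have a3 := ht t h
    unfold w1
    positivity
  have p4 : ∀ t ∈ Ici t0, 0 < ar1 D t := fun t h => by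
    obtain ⟨-, a1, a2⟩ := hp t h
    have a3 := ht t h
    unfold ar1
    positivity
  have c5 : ContinuousOn (mass D) (Ici t0) :=
    (continuousOn_const.mul (c4.continuousOn.rpow_const fun t h => .inl (p4 t h).ne')).mul
      (continuousOn_const.sub (((c1.pow 2).sub (c2.pow 2)).div (c3.pow 2)
        fun t h => (pow_pos (p3 t h) 2).ne'))
  obtain ⟨t1, h1, h2, h3⟩ := ode_last (m := fun t => min (H1 D t + PP D t) (H1 D t - PP D t))
    (continuous_min.comp_continuousOn ((c1.add c2).prodMk (c1.sub c2))) (min_le_of_left_le hi)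
    ((hE D ha).mono fun t h => lt_min h.1 h.2)
  have h4 : H1 D t1 ^ 2 - PP D t1 ^ 2 = 0 := by
    rw [sq_sub_sq, mul_eq_zero]
    exact (min_choice _ _).imp (fun h => h.symm.trans h2) fun h => h.symm.trans h2
  have h5 : mass D t1 = 1 / 2 * ar1 D t1 ^ ((14 : ℝ) / 15) := by
    rw [mass, h4, zero_div, sub_zero, mul_one]
  refine ⟨t1, h1, h5 ▸ ge_of_tendsto (hL D E ha hF) ((eventually_ge_atTop t1).mono
    (hC (mass D) t1 (c5.mono (Ici_subset_Ici.2 h1)) ?_ fun t h h' => ?_))⟩
  · rw [h5]
    exact mul_pos one_half_pos (Real.rpow_pos_of_pos (p4 t1 h1) _)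
  · have h6 := h1.trans h.le
    have h7 := lt_min_iff.1 (h3 t h)
    exact hM D t (ht t h6) (hp t h6).1 (hp t h6).2.1 (hp t h6).2.2 (hd t (h1.trans_lt h))
      h7.1 h7.2 h'

end Vale.Agent.P366N
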