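import Vale.Agent.P366N.Stm2

/-! The quadratic term in the Christoffel symbols (`Spin(9)` case). -/

namespace Vale.Agent.P366N

open scoped Matrix
open Matrix
open Vale.Agent.P366 (Pt dot_pos)

namespace QAux

variable {J : Fin 9 → Matrix (Fin 16) (Fin 16) ℝ} {x : Pt 16}

theorem trL (p q : Pt 16) (N : Matrix (Fin 16) (Fin 16) ℝ) :
    (vecMulVec p q * N).trace = q ⬝ᵥ (N *ᵥ p) := by
  rw [trace_mul_comm, mul_vecMulVec, trace_vecMulVec, dotProduct_comm]

theorem trR (p q : Pt 16) (N : Matrix (Fin 16) (Fin 16) ℝ) :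
    (N * vecMulVec p q).trace = q ⬝ᵥ (N *ᵥ p) := by
  rw [trace_mul_comm, trL]

theorem bm_add (u v : Pt 16) : Bm J x (u + v) = Bm J x u + Bm J x v := by
  simp only [Bm, dotProduct_add, add_smul, Finset.sum_add_distrib]
  abel

theorem bm_smul (c : ℝ) (u : Pt 16) : Bm J x (c • u) = c • Bm J x u := by
  simp only [Bm, dotProduct_smul, smul_eq_mul, smul_add, Finset.smul_sum, smul_smul]

theorem em_add (u v : Pt 16) : Em J x (u + v) = Em J x u + Em J x v := by
  simp only [Em, mulVec_add, add_vecMulVec, Finset.sum_add_distrib]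
  abel

theorem em_smul (c : ℝ) (u : Pt 16) : Em J x (c • u) = c • Em J x u := by
  simp only [Em, mulVec_smul, smul_vecMulVec, smul_add, Finset.smul_sum]

/-- The Christoffel symbols as a linear map. -/
noncomputable def gamL (J : Fin 9 → Matrix (Fin 16) (Fin 16) ℝ) (x : Pt 16) (A B C A' B' C' : ℝ) :
    Pt 16 →ₗ[ℝ] Matrix (Fin 16) (Fin 16) ℝ where
  toFun := Gam J x A B C A' B' C'
  map_add' u v := by
    rw [Gam, Gam, Gam, ← Matrix.mul_add]
    refine congrArg _ ?_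
    simp only [Tm, bm_add, em_add, transpose_add, mulVec_add, vecMulVec_add, add_vecMulVec,
      dotProduct_add]
    module
  map_smul' c u := by
    rw [Gam, Gam, RingHom.id_apply, ← Matrix.mul_smul]
    refine congrArg _ ?_
    simp only [Tm, bm_smul, em_smul, transpose_smul, mulVec_smul, vecMulVec_smul, smul_vecMulVec,
      dotProduct_smul, smul_eq_mul]
    module

theorem blk_hm (h : IsCliff J) (hx : x ≠ 0) (α β γ : ℝ) {N : Matrix (Fin 16) (Fin 16) ℝ}
    (hN : blk J x 0 0 1 * N = N) : blk J x α β γ * N = γ • N := by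
  calc blk J x α β γ * N = blk J x α β γ * (blk J x 0 0 1 * N) := by rw [hN]
    _ = (γ • blk J x 0 0 1) * N := by
        rw [← Matrix.mul_assoc, blk_mul h hx, blk_smul, mul_zero, mul_zero, mul_zero]
    _ = γ • N := by rw [Matrix.smul_mul, hN]

theorem f_x (hT : TmStmt) (h : IsCliff J) (hx : x ≠ 0) (A B C A' B' C' : ℝ) :
    (Gam J x A B C A' B' C' x * Gam J x A B C A' B' C' x).trace =
      (x ⬝ᵥ x) ^ 2 * ((A' / A) ^ 2 + 7 * (B' / B) ^ 2 + 8 * (C' / C) ^ 2) := by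
  simp only [Gam, (hT J x A B C A' B' C' h hx).1, Matrix.mul_smul, Matrix.smul_mul, blk_mul h hx,
    trace_smul, blk_trace h hx, smul_eq_mul]
  ring

theorem f_v (hT : TmStmt) (h : IsCliff J) (hx : x ≠ 0) (A B C A' B' C' : ℝ) {v : Pt 16}
    (hv : Hor J x v) :
    (Gam J x A B C A' B' C' v * Gam J x A B C A' B' C' v).trace =
      2 * (x ⬝ᵥ x) * ((A - C) / (x ⬝ᵥ x) - C') * C' / (A * C) * (v ⬝ᵥ v) := by
  obtain ⟨t1, t2⟩ := (hT J x A B C A' B' C' h hx).2.1 v hv
  have h0 : x ⬝ᵥ v = 0 := hv.x_dot h hx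
  have h1 : v ⬝ᵥ x = 0 := by rw [dotProduct_comm, h0]
  have e : Gam J x A B C A' B' C' v = (((A - C) / (x ⬝ᵥ x) - C') * A⁻¹) • vecMulVec x v +
      (C' * C⁻¹) • vecMulVec v x + ((B - C) / (x ⬝ᵥ x) * C⁻¹) • (Bm J x v * blk J x 0 1 0) := by
    simp only [Gam, t1, Matrix.mul_add, Matrix.mul_smul, mul_vecMulVec, blk_x h hx,
      blk_hor h hx hv, blk_hm h hx _ _ _ t2, smul_vecMulVec]
    module
  have e2 : (Bm J x v * blk J x 0 1 0 * (Bm J x v * blk J x 0 1 0)).trace = 0 := by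
    rw [Matrix.mul_assoc, blk_hm h hx _ _ _ t2, zero_smul, Matrix.mul_zero, trace_zero]
  have e3 : (Bm J x v * blk J x 0 1 0) *ᵥ x = 0 := by
    rw [← mulVec_mulVec, blk_x h hx, zero_smul, mulVec_zero]
  have e4 : (Bm J x v * blk J x 0 1 0) *ᵥ v = 0 := by
    rw [← mulVec_mulVec, blk_hor h hx hv, zero_smul, mulVec_zero]
  rw [e]
  generalize Bm J x v * blk J x 0 1 0 = N at e2 e3 e4
  simp only [Matrix.add_mul, Matrix.mul_add, Matrix.smul_mul, Matrix.mul_smul, trace_add,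
    trace_smul, e2, trL, trR, e3, e4, vecMulVec_mulVec, op_smul_eq_smul, dotProduct_smul,
    smul_eq_mul, h0, h1, dotProduct_zero]
  ring

theorem f_y (hT : TmStmt) (h : IsCliff J) (hx : x ≠ 0) (A B C A' B' C' : ℝ) {y : Pt 16}
    (hy : Ver J x y) :
    (Gam J x A B C A' B' C' y * Gam J x A B C A' B' C' y).trace =
      (2 * (x ⬝ᵥ x) * ((A - B) / (x ⬝ᵥ x) - B') * B' / (A * B) -
        ((B - C) / (x ⬝ᵥ x)) ^ 2 * (x ⬝ᵥ x) * 8 / C ^ 2) * (y ⬝ᵥ y) := by
  obtain ⟨t1, t2, t3, -, e2⟩ := (hT J x A B C A' B' C' h hx).2.2 y hy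
  have h0 : x ⬝ᵥ y = 0 := hy.2
  have h1 : y ⬝ᵥ x = 0 := by rw [dotProduct_comm, h0]
  have e : Gam J x A B C A' B' C' y = (((A - B) / (x ⬝ᵥ x) - B') * A⁻¹) • vecMulVec x y +
      (B' * B⁻¹) • vecMulVec y x + ((B - C) / (x ⬝ᵥ x) * C⁻¹) • Am J x y := by
    simp only [Gam, t1, Matrix.mul_add, Matrix.mul_smul, mul_vecMulVec, blk_x h hx,
      blk_ver hy, blk_hm h hx _ _ _ t2, smul_vecMulVec]
    module
  have e3 : Am J x y *ᵥ x = 0 := by
    rw [← t3, ← mulVec_mulVec, blk_x h hx, zero_smul, mulVec_zero]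
  have e4 : Am J x y *ᵥ y = 0 := by
    rw [← t3, ← mulVec_mulVec, blk_ver hy, zero_smul, mulVec_zero]
  rw [e]
  generalize Am J x y = N at e2 e3 e4
  simp only [Matrix.add_mul, Matrix.mul_add, Matrix.smul_mul, Matrix.mul_smul, trace_add,
    trace_smul, e2, trL, trR, e3, e4, vecMulVec_mulVec, op_smul_eq_smul, dotProduct_smul,
    smul_eq_mul, h0, h1, dotProduct_zero]
  ring

end QAux

open QAux

theorem q_pf (h : TmStmt) : QStmt := by
  intro J x A B C A' B' C' hJ hx hA hB hC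
  have ht := (dot_pos hx).ne'
  have key := contract hJ hx (LinearMap.mk₂ ℝ
    (fun u v => (gamL J x A B C A' B' C' v * gamL J x A B C A' B' C' u).trace)
    (fun _ _ _ => by rw [map_add, Matrix.mul_add, trace_add])
    (fun _ _ _ => by rw [map_smul, Matrix.mul_smul, trace_smul])
    (fun _ _ _ => by rw [map_add, Matrix.add_mul, trace_add])
    (fun _ _ _ => by rw [map_smul, Matrix.smul_mul, trace_smul])) A⁻¹ B⁻¹ C⁻¹ _ _
    (fun v hv => f_v h hJ hx A B C A' B' C' hv) fun y hy => f_y h hJ hx A B C A' B' C' hy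
  refine key.trans ?_
  simp only [LinearMap.mk₂_apply, gamL, LinearMap.coe_mk, AddHom.coe_mk, f_x h hJ hx, qq]
  field_simp
  ring

end Vale.Agent.P366N
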