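import Vale.Agent.P366N.Stm2

/-! The scalar curvature of the ansatz (`Spin(9)` case). -/

namespace Vale.Agent.P366N

open scoped Matrix ContDiff Topology
open Filter Set
open Vale.Agent.P366 (Pt pd chr scal Dat ll GenRStmt RadStmt dot_pos sum_mul_mul)

namespace ScalAux

theorem hd1 {A : ℝ → ℝ} (h : ContDiff ℝ ∞ A) (t : ℝ) : HasDerivAt A (deriv A t) t :=
  (h.differentiable (by simp) t).hasDerivAt

theorem hd2 {A : ℝ → ℝ} (h : ContDiff ℝ ∞ A) (t : ℝ) :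
    HasDerivAt (deriv A) (deriv (deriv A) t) t :=
  hd1 (contDiff_infty_iff_deriv.1 h).2 t

/-- The coefficient of the contracted Christoffel symbols. -/
noncomputable def fv (D : Dat) (s : ℝ) : ℝ :=
  vv s (D.A s) (D.B s) (D.C s) (deriv D.A s) (deriv D.B s) (deriv D.C s)

/-- The coefficient of the traced Christoffel symbols. -/
noncomputable def fw (D : Dat) (s : ℝ) : ℝ :=
  ww (D.A s) (D.B s) (D.C s) (deriv D.A s) (deriv D.B s) (deriv D.C s)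

theorem one_var (D : Dat) (t : ℝ) (ht : t ≠ 0) (hA : D.A t ≠ 0) (hB : D.B t ≠ 0)
    (hC : D.C t ≠ 0) : DifferentiableAt ℝ (fv D) t ∧ DifferentiableAt ℝ (fw D) t ∧
    2 * deriv (fv D) t * t + 16 * fv D t
      - (2 * deriv (fw D) t * ((D.A t)⁻¹ * t)
        + fw D t * ((D.A t)⁻¹ + 7 * (D.B t)⁻¹ + 8 * (D.C t)⁻¹))
      + fw D t * fv D t * t
      + qq t (D.A t) (D.B t) (D.C t) (deriv D.A t) (deriv D.B t) (deriv D.C t) = R1 D t := by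
  have a1 := hd1 D.hA t
  have b1 := hd1 D.hB t
  have c1 := hd1 D.hC t
  have a2 := hd2 D.hA t
  have b2 := hd2 D.hB t
  have c2 := hd2 D.hC t
  have i1 := hasDerivAt_id' t
  have hv : HasDerivAt (fv D) _ t :=
    (((((((a1.fun_sub c1).fun_div i1 ht).fun_sub c2).const_mul 8).fun_div c1 hC).fun_add
      (a2.fun_div a1 hA)).fun_add
      (((((a1.fun_sub b1).fun_div i1 ht).fun_sub b2).const_mul 7).fun_div b1 hB)).fun_div a1 hA
  have hw : HasDerivAt (fw D) _ t :=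
    ((a2.fun_div a1 hA).fun_add ((b2.const_mul 7).fun_div b1 hB)).fun_add
      ((c2.const_mul 8).fun_div c1 hC)
  have hh' : HasDerivAt (hh D) _ t :=
    ((((i1.fun_mul b2).fun_div b1 hB).const_add 1).const_mul 7).fun_add
      ((((i1.fun_mul c2).fun_div c1 hC).const_add 1).const_mul 8)
  refine ⟨hv.differentiableAt, hw.differentiableAt, ?_⟩
  unfold R1
  rw [hv.deriv, hw.deriv, hh'.deriv]
  unfold fv fw vv ww qq hh ll
  field_simp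
  ring

theorem pd_congr {n : ℕ} {f g : Pt n → ℝ} {x : Pt n} (h : f =ᶠ[𝓝 x] g) (i : Fin n) :
    pd i f x = pd i g x := by
  unfold pd
  rw [h.fderiv_eq]

end ScalAux

open ScalAux

theorem scal_pf (hG : GenRStmt) (hS : SmoothStmt) (hR : RadStmt) (hC : ChrStmt) (hV : VStmt)
    (hW : WStmt) (hQ : QStmt) : ScalStmt := by
  intro J D x hJ hx hA hB hC0
  have ht : 0 < x ⬝ᵥ x := dot_pos hx
  obtain ⟨dv, dw, key⟩ := one_var D (x ⬝ᵥ x) ht.ne' hA hB hC0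
  have inv : ∀ y : Pt 16, y ≠ 0 → D.A (y ⬝ᵥ y) ≠ 0 → D.B (y ⬝ᵥ y) ≠ 0 → D.C (y ⬝ᵥ y) ≠ 0 →
      (hopf J D.A D.B D.C y)⁻¹ = blk J y (D.A (y ⬝ᵥ y))⁻¹ (D.B (y ⬝ᵥ y))⁻¹ (D.C (y ⬝ᵥ y))⁻¹ :=
    fun y hy h1 h2 h3 => blk_inv hJ hy h1 h2 h3
  have eV : ∀ y : Pt 16, y ≠ 0 → D.A (y ⬝ᵥ y) ≠ 0 → D.B (y ⬝ᵥ y) ≠ 0 → D.C (y ⬝ᵥ y) ≠ 0 → ∀ k,
      ∑ i, ∑ j, (hopf J D.A D.B D.C y)⁻¹ i j * chr (hopf J D.A D.B D.C) k i j y =
        fv D (y ⬝ᵥ y) * y k := by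
    intro y hy h1 h2 h3 k
    rw [inv y hy h1 h2 h3]
    simp only [hC J D y hJ hy h1 h2 h3]
    exact hV J y _ _ _ _ _ _ hJ hy h1 h2 h3 k
  have eW : ∀ y : Pt 16, y ≠ 0 → D.A (y ⬝ᵥ y) ≠ 0 → D.B (y ⬝ᵥ y) ≠ 0 → D.C (y ⬝ᵥ y) ≠ 0 → ∀ i,
      ∑ k, chr (hopf J D.A D.B D.C) k i k y = fw D (y ⬝ᵥ y) * y i := by
    intro y hy h1 h2 h3 i
    simp only [hC J D y hJ hy h1 h2 h3]
    exact hW J y _ _ _ _ _ _ hJ hy h1 h2 h3 i
  have cd : Continuous fun y : Pt 16 => y ⬝ᵥ y := continuous_id.dotProduct continuous_id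
  have ev : ∀ᶠ y in 𝓝 x, y ≠ 0 ∧ D.A (y ⬝ᵥ y) ≠ 0 ∧ D.B (y ⬝ᵥ y) ≠ 0 ∧ D.C (y ⬝ᵥ y) ≠ 0 :=
    (eventually_ne_nhds hx).and (((D.hA.continuous.comp cd).continuousAt.eventually_ne hA).and
      (((D.hB.continuous.comp cd).continuousAt.eventually_ne hB).and
        ((D.hC.continuous.comp cd).continuousAt.eventually_ne hC0)))
  have p1 : ∀ k, pd k (fun y => ∑ i, ∑ j, (hopf J D.A D.B D.C y)⁻¹ i j *
      chr (hopf J D.A D.B D.C) k i j y) x =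
      2 * deriv (fv D) (x ⬝ᵥ x) * x k * x k + fv D (x ⬝ᵥ x) := by
    intro k
    rw [pd_congr (g := fun y => fv D (y ⬝ᵥ y) * y k)
      (ev.mono fun y hy => eV y hy.1 hy.2.1 hy.2.2.1 hy.2.2.2 k), hR 16 _ x dv, if_pos rfl]
  have p2 : ∀ i j, pd j (fun y => ∑ k, chr (hopf J D.A D.B D.C) k i k y) x =
      2 * deriv (fw D) (x ⬝ᵥ x) * x i * x j +
        (if i = j then fw D (x ⬝ᵥ x) else 0) := by
    intro i j
    rw [pd_congr (g := fun y => fw D (y ⬝ᵥ y) * y i)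
      (ev.mono fun y hy => eW y hy.1 hy.2.1 hy.2.2.1 hy.2.2.2 i), hR 16 _ x dw]
  have s1 : ∑ k, (2 * deriv (fv D) (x ⬝ᵥ x) * x k * x k +
      fv D (x ⬝ᵥ x)) = 2 * deriv (fv D) (x ⬝ᵥ x) * (x ⬝ᵥ x) +
        16 * fv D (x ⬝ᵥ x) := by
    generalize deriv (fv D) (x ⬝ᵥ x) = u
    generalize fv D (x ⬝ᵥ x) = v
    simp only [Finset.sum_add_distrib, Finset.sum_const, Finset.card_univ, Fintype.card_fin,
      nsmul_eq_mul, dotProduct, Finset.mul_sum, mul_assoc, Nat.cast_ofNat]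
  have s2 : ∀ (M : Matrix (Fin 16) (Fin 16) ℝ) (u v : ℝ),
      ∑ i, ∑ j, M i j * (2 * u * x i * x j + (if i = j then v else 0)) =
        2 * u * (x ⬝ᵥ (M *ᵥ x)) + v * M.trace := by
    intro M u v
    rw [← sum_mul_mul, Matrix.trace, Finset.mul_sum, Finset.mul_sum, ← Finset.sum_add_distrib]
    refine Finset.sum_congr rfl fun i _ => ?_
    simp only [mul_add, Finset.sum_add_distrib, mul_ite, mul_zero, Finset.sum_ite_eq,
      Finset.mem_univ, if_true, Finset.mul_sum, Matrix.diag_apply]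
    rw [mul_comm v]
    congr 1
    exact Finset.sum_congr rfl fun j _ => by ring
  have s3 : ∑ l, fw D (x ⬝ᵥ x) * x l * (fv D (x ⬝ᵥ x) * x l) =
      fw D (x ⬝ᵥ x) * fv D (x ⬝ᵥ x) * (x ⬝ᵥ x) := by
    generalize fw D (x ⬝ᵥ x) = u
    generalize fv D (x ⬝ᵥ x) = v
    simp only [dotProduct, Finset.mul_sum]
    exact Finset.sum_congr rfl fun j _ => by ring
  rw [hG 16 _ x (hS J _ _ _ x hx D.hA D.hB D.hC) (fun y => blk_T hJ y _ _ _)
    (blk_det_ne hJ hx hA hB hC0)]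
  simp only [p1, p2, eV x hx hA hB hC0, eW x hx hA hB hC0]
  rw [s1, s2, s3, inv x hx hA hB hC0, blk_x hJ hx, blk_trace hJ hx, dotProduct_smul, smul_eq_mul,
    ← key]
  simp only [hC J D x hJ hx hA hB hC0]
  rw [hQ J x _ _ _ _ _ _ hJ hx hA hB hC0]

end Vale.Agent.P366N
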