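import Vale.Agent.P366N.Stm2

/-! Special values of `Tm`: the proof. -/

namespace Vale.Agent.P366N

open scoped Matrix
open Matrix
open Vale.Agent.P366 (Pt pr0 dot_pos)

namespace TmVAux

variable {J : Fin 9 → Matrix (Fin 16) (Fin 16) ℝ} {x : Pt 16}

theorem ext1 {M N : Matrix (Fin 16) (Fin 16) ℝ} (h : ∀ u, M *ᵥ u = N *ᵥ u) : M = N :=
  Matrix.ext_of_mulVec_single fun _ => h _

theorem ext2 {M N : Matrix (Fin 16) (Fin 16) ℝ} (h : ∀ w u, w ⬝ᵥ (M *ᵥ u) = w ⬝ᵥ (N *ᵥ u)) :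
    M = N := ext1 fun u => funext fun i => by simpa using h (Pi.single i 1) u

theorem dT (M : Matrix (Fin 16) (Fin 16) ℝ) (w u : Pt 16) : w ⬝ᵥ (Mᵀ *ᵥ u) = (M *ᵥ w) ⬝ᵥ u := by
  rw [Matrix.dotProduct_mulVec, Matrix.vecMul_transpose]

theorem vv (a b u : Pt 16) : vecMulVec a b *ᵥ u = (b ⬝ᵥ u) • a := by
  rw [vecMulVec_mulVec, op_smul_eq_smul]

theorem hP : blk J x 0 0 1 = 1 - prL J x := by simp [blk]

theorem hQ : blk J x 0 1 0 = prL J x - pr0 x := by simp [blk]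

theorem kill (h : IsCliff J) {M : Matrix (Fin 16) (Fin 16) ℝ} (hx : x ≠ 0) (h1 : M *ᵥ x = 0)
    (h2 : ∀ y, Ver J x y → M *ᵥ y = 0) (u : Pt 16) : M *ᵥ u = M *ᵥ (blk J x 0 0 1 *ᵥ u) := by
  conv_lhs => rw [decomp J x u]
  rw [Matrix.mulVec_add, Matrix.mulVec_add, Matrix.mulVec_smul, h1, h2 _ (blk_ver_mem h hx u),
    smul_zero, add_zero, add_zero]

theorem em_hor (hB : BmStmt) (h : IsCliff J) (hx : x ≠ 0) {v : Pt 16} (hv : Hor J x v) :
    Em J x v = (2 : ℝ) • vecMulVec x v - Bm J x v * blk J x 0 0 1 := by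
  obtain ⟨b1, -, b3, b4, b5⟩ := hB J x h hx
  refine ext1 fun u => ?_
  have e : v ⬝ᵥ (blk J x 0 0 1 *ᵥ u) = v ⬝ᵥ u := by
    rw [← blk_T h, dT, blk_hor h hx hv, one_smul]
  rw [kill h hx (by rw [b3, b1, Matrix.smul_mulVec, hv, smul_zero])
    (fun y hy => by rw [b3, b4 y hy, Matrix.zero_mulVec]) u, b3,
    eq_sub_of_add_eq' ((b5 v hv).2.2 _ (blk_hor_mem h hx u)).2, e, Matrix.sub_mulVec,
    Matrix.smul_mulVec, vv, smul_smul, Matrix.mulVec_mulVec]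

theorem am (hB : BmStmt) (h : IsCliff J) (hx : x ≠ 0) {y : Pt 16} (hy : Ver J x y) (u : Pt 16) :
    Am J x y *ᵥ u = Bm J x (blk J x 0 0 1 *ᵥ u) *ᵥ y := by
  obtain ⟨b1, -, b3, b4, -⟩ := hB J x h hx
  have e : ∀ w, Am J x y *ᵥ w = Bm J x w *ᵥ y - (2 * (x ⬝ᵥ w)) • y := fun w => by
    rw [Am, Matrix.sub_mulVec, b3, Matrix.smul_mulVec, vv, smul_smul]
  rw [kill h hx (by rw [e, b1, Matrix.smul_mulVec, hy.1, sub_self])
    (fun y' hy' => by rw [e, b4 y' hy', hy'.2]; simp) u, e, (blk_hor_mem h hx u).x_dot h hx]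
  simp

end TmVAux

open TmVAux in
theorem tm_pf (h : BmStmt) : TmStmt := by
  intro J x A B C A' B' C' hJ hx
  have ht := (dot_pos hx).ne'
  obtain ⟨b1, b2, b3, b4, b5⟩ := h J x hJ hx
  have hPP : blk J x 0 0 1 * blk J x 0 0 1 = blk J x 0 0 1 := by rw [blk_mul hJ hx]; simp
  refine ⟨?_, fun v hv => ⟨?_, ?_⟩, fun y hy => ?_⟩
  · have e : (Em J x x)ᵀ = Em J x x := by simp [Em, Matrix.transpose_sum]
    rw [Tm, e, b1, blk_x hJ hx, smul_vecMulVec, vecMulVec_smul, blk_eq, blk_eq]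
    match_scalars <;> field_simp <;> ring
  · obtain ⟨c1, c2, -⟩ := b5 v hv
    have e1 := em_hor h hJ hx hv
    have e2 : (Em J x v)ᵀ = (2 : ℝ) • vecMulVec v x - Bm J x v * prL J x := by
      rw [e1, Matrix.transpose_sub, Matrix.transpose_smul, Matrix.transpose_mul, blk_T hJ, b2,
        transpose_vecMulVec, c2, hP]
    have e3 : Bm J x v * blk J x 0 1 0 = Bm J x v * prL J x - vecMulVec v x := by
      rw [hQ, Matrix.mul_sub, pr0, Matrix.mul_smul, mul_vecMulVec, c1, smul_vecMulVec, smul_smul,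
        inv_mul_cancel₀ ht, one_smul]
    rw [Tm, e2, e1, e3, hP, Matrix.mul_sub, Matrix.mul_one, hv.x_dot hJ hx, blk_hor hJ hx hv,
      smul_vecMulVec, vecMulVec_smul, zero_smul]
    match_scalars <;> ring
  · rw [← Matrix.mul_assoc, hP, ← (b5 v hv).2.1, Matrix.mul_assoc, hQ, Matrix.mul_sub (prL J x),
      prL_mul hJ hx, prL_pr0 hJ hx]
  · have a0 := am h hJ hx hy
    have hH := blk_hor_mem hJ hx
    have a1 : blk J x 0 0 1 * Am J x y = Am J x y := ext1 fun u => by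
      have c2 := (b5 _ (hH u)).2.1
      rw [← hP] at c2
      rw [← Matrix.mulVec_mulVec, a0, Matrix.mulVec_mulVec y, ← c2, ← Matrix.mulVec_mulVec y, hy.1]
    have a2 : Am J x y * blk J x 0 0 1 = Am J x y := ext1 fun u => by
      rw [← Matrix.mulVec_mulVec, a0, a0, Matrix.mulVec_mulVec u, hPP]
    have a3 : ∀ w u, w ⬝ᵥ (Am J x y *ᵥ u) =
        (Bm J x (blk J x 0 0 1 *ᵥ u) *ᵥ (blk J x 0 0 1 *ᵥ w)) ⬝ᵥ y := fun w u => by
      rw [← a1, ← Matrix.mulVec_mulVec, a0, ← dT, b2, ← dT, blk_T hJ]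
    have a4 : (Am J x y)ᵀ = -Am J x y := ext2 fun w u => by
      rw [dT, dotProduct_comm, Matrix.neg_mulVec, dotProduct_neg, a3, a3, eq_neg_iff_add_eq_zero,
        ← add_dotProduct, ((b5 _ (hH w)).2.2 _ (hH u)).2, smul_dotProduct, hy.2, smul_zero]
    refine ⟨?_, a1, a2, a4, ?_⟩
    · have e1 : Em J x y = Am J x y + (2 : ℝ) • vecMulVec y x := by rw [Am, sub_add_cancel]
      rw [Tm, e1, Matrix.transpose_add, a4, Matrix.transpose_smul, transpose_vecMulVec, b4 y hy,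
        hy.2, blk_ver hy, smul_vecMulVec, vecMulVec_smul, zero_smul]
      match_scalars <;> ring
    · have a5 : (Am J x y)ᵀ * Am J x y = ((x ⬝ᵥ x) * (y ⬝ᵥ y)) • blk J x 0 0 1 := by
        refine ext2 fun w u => ?_
        have k := congrArg (fun M => y ⬝ᵥ (M *ᵥ y)) ((b5 _ (hH w)).2.2 _ (hH u)).1
        have k1 : ∀ p q : Pt 16, y ⬝ᵥ ((Bm J x p * Bm J x q) *ᵥ y) =
            (Bm J x p *ᵥ y) ⬝ᵥ (Bm J x q *ᵥ y) := fun p q => by
          rw [← Matrix.mulVec_mulVec, ← dT, b2]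
        have k2 : (blk J x 0 0 1 *ᵥ w) ⬝ᵥ (blk J x 0 0 1 *ᵥ u) = w ⬝ᵥ (blk J x 0 0 1 *ᵥ u) := by
          rw [← dT, blk_T hJ, Matrix.mulVec_mulVec, hPP]
        simp only [Matrix.add_mulVec, dotProduct_add, k1, k2, Matrix.smul_mulVec, dotProduct_smul,
          Matrix.one_mulVec, smul_eq_mul, ← a0] at k
        rw [← Matrix.mulVec_mulVec, dT, Matrix.smul_mulVec, dotProduct_smul, smul_eq_mul]
        rw [dotProduct_comm (Am J x y *ᵥ u)] at k
        linarith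
      have a6 := congrArg Matrix.trace a5
      rw [a4, Matrix.neg_mul, Matrix.trace_neg, Matrix.trace_smul, blk_trace hJ hx,
        smul_eq_mul] at a6
      linarith

end Vale.Agent.P366N
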