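import Vale.Agent.P366N.Stm2

/-! Contractions of the Christoffel symbols of the ansatz (`Spin(9)` case). -/

namespace Vale.Agent.P366N

open scoped Matrix
open Matrix
open Vale.Agent.P366 (Pt dot_pos)

namespace VW

variable {J : Fin 9 → Matrix (Fin 16) (Fin 16) ℝ}

theorem bm_add (x u w : Pt 16) : Bm J x (u + w) = Bm J x u + Bm J x w := by
  simp only [Bm, dotProduct_add, add_smul, Finset.sum_add_distrib]
  abel

theorem bm_smul (x u : Pt 16) (c : ℝ) : Bm J x (c • u) = c • Bm J x u := by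
  simp only [Bm, dotProduct_smul, smul_eq_mul, smul_add, Finset.smul_sum, smul_smul]

theorem em_add (x u w : Pt 16) : Em J x (u + w) = Em J x u + Em J x w := by
  simp only [Em, Matrix.mulVec_add, add_vecMulVec, Finset.sum_add_distrib]
  abel

theorem em_smul (x u : Pt 16) (c : ℝ) : Em J x (c • u) = c • Em J x u := by
  simp only [Em, Matrix.mulVec_smul, smul_vecMulVec, smul_add, Finset.smul_sum]

theorem tm_add (x : Pt 16) (A B C A' B' C' : ℝ) (u w : Pt 16) :
    Tm J x A B C A' B' C' (u + w) = Tm J x A B C A' B' C' u + Tm J x A B C A' B' C' w := by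
  simp only [Tm, bm_add, em_add, Matrix.mulVec_add, add_vecMulVec, vecMulVec_add,
    Matrix.transpose_add, dotProduct_add]
  module

theorem tm_smul (x : Pt 16) (A B C A' B' C' : ℝ) (u : Pt 16) (c : ℝ) :
    Tm J x A B C A' B' C' (c • u) = c • Tm J x A B C A' B' C' u := by
  simp only [Tm, bm_smul, em_smul, Matrix.mulVec_smul, smul_vecMulVec, vecMulVec_smul,
    Matrix.transpose_smul, dotProduct_smul, smul_eq_mul]
  module

theorem tr_skew {S M : Matrix (Fin 16) (Fin 16) ℝ} (hS : Sᵀ = S) (hM : Mᵀ = -M) :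
    (S * M).trace = 0 := by
  have := Matrix.trace_transpose (S * M)
  rw [Matrix.transpose_mul, hS, hM, Matrix.neg_mul, Matrix.trace_neg, Matrix.trace_mul_comm]
    at this
  linarith

theorem blk_zero (x : Pt 16) : blk J x 0 0 0 = 0 := by
  rw [blk_eq]; simp

end VW

theorem v_pf (hT : TmStmt) : VStmt := by
  intro J x A B C A' B' C' h hx hA hB hC k
  have t0 := (dot_pos hx).ne'
  obtain ⟨T0, T1, T2⟩ := hT J x A B C A' B' C' h hx
  have c := contract h hx (LinearMap.mk₂ ℝ
    (fun u w => (blk J x A⁻¹ B⁻¹ C⁻¹ *ᵥ (Tm J x A B C A' B' C' u *ᵥ w)) k)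
    (fun u u' w => by
      simp only [VW.tm_add, Matrix.add_mulVec, Matrix.mulVec_add, Pi.add_apply])
    (fun c u w => by
      simp only [VW.tm_smul, Matrix.smul_mulVec, Matrix.mulVec_smul, Pi.smul_apply])
    (fun u w w' => by simp only [Matrix.mulVec_add, Pi.add_apply])
    (fun c u w => by simp only [Matrix.mulVec_smul, Pi.smul_apply]))
    A⁻¹ B⁻¹ C⁻¹ (((A - C) / (x ⬝ᵥ x) - C') * A⁻¹ * x k) (((A - B) / (x ⬝ᵥ x) - B') * A⁻¹ * x k)
    (fun v hv => by
      rw [LinearMap.mk₂_apply, (T1 v hv).1]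
      simp only [Matrix.add_mulVec, Matrix.smul_mulVec, vecMulVec_mulVec, op_smul_eq_smul,
        ← Matrix.mulVec_mulVec, blk_hor h hx hv, hv.x_dot h hx, zero_smul, smul_zero,
        Matrix.mulVec_zero, add_zero, Matrix.mulVec_smul, blk_x h hx, Pi.smul_apply, smul_eq_mul]
      ring)
    (fun y hy => by
      obtain ⟨e1, -, e3, -, -⟩ := T2 y hy
      have e4 : Am J x y *ᵥ y = 0 := by
        rw [← e3, ← Matrix.mulVec_mulVec, blk_ver hy, zero_smul, Matrix.mulVec_zero]
      rw [LinearMap.mk₂_apply, e1]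
      simp only [Matrix.add_mulVec, Matrix.smul_mulVec, vecMulVec_mulVec, op_smul_eq_smul,
        e4, hy.2, zero_smul, smul_zero, add_zero, Matrix.mulVec_smul, blk_x h hx, Pi.smul_apply,
        smul_eq_mul]
      ring)
  simp only [LinearMap.mk₂_apply, T0, Matrix.smul_mulVec, Matrix.mulVec_smul, blk_x h hx,
    Pi.smul_apply, smul_eq_mul] at c
  simp only [Matrix.mulVec_single_one] at c
  refine c.trans ?_
  rw [vv]
  field_simp
  ring

theorem w_pf (hT : TmStmt) : WStmt := by
  intro J x A B C A' B' C' h hx hA hB hC i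
  have t0 := (dot_pos hx).ne'
  obtain ⟨T0, T1, T2⟩ := hT J x A B C A' B' C' h hx
  have k0 : (Gam J x A B C A' B' C' x).trace = ww A B C A' B' C' * (x ⬝ᵥ x) := by
    rw [Gam, T0, Matrix.mul_smul, blk_mul h hx, Matrix.trace_smul, blk_trace h hx, ww, smul_eq_mul]
    ring
  have k1 : ∀ v, Hor J x v → (Gam J x A B C A' B' C' v).trace = 0 := fun v hv => by
    obtain ⟨e1, e2⟩ := T1 v hv
    have e3 : (blk J x A⁻¹ B⁻¹ C⁻¹ * (Bm J x v * blk J x 0 1 0)).trace = 0 := by
      rw [← e2, ← Matrix.mul_assoc, ← Matrix.mul_assoc, Matrix.trace_mul_comm, ← Matrix.mul_assoc,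
        blk_mul h hx, blk_mul h hx]
      simp only [mul_zero, zero_mul, VW.blk_zero, Matrix.trace_zero]
    rw [Gam, e1]
    simp only [Matrix.mul_add, Matrix.mul_smul, Matrix.trace_add, Matrix.trace_smul, e3,
      mul_vecMulVec, Matrix.trace_vecMulVec, blk_x h hx, blk_hor h hx hv, smul_dotProduct,
      dotProduct_comm v x, hv.x_dot h hx, smul_zero, add_zero]
  have k2 : ∀ y, Ver J x y → (Gam J x A B C A' B' C' y).trace = 0 := fun y hy => by
    obtain ⟨e1, -, -, e2, -⟩ := T2 y hy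
    have e3 := VW.tr_skew (blk_T h x A⁻¹ B⁻¹ C⁻¹) e2
    rw [Gam, e1]
    simp only [Matrix.mul_add, Matrix.mul_smul, Matrix.trace_add, Matrix.trace_smul, e3,
      mul_vecMulVec, Matrix.trace_vecMulVec, blk_x h hx, blk_ver hy, smul_dotProduct,
      dotProduct_comm y x, hy.2, smul_zero, add_zero]
  have k : ∀ u, (Gam J x A B C A' B' C' u).trace = ww A B C A' B' C' * (x ⬝ᵥ u) := fun u => by
    have a1 := k1 _ (blk_hor_mem h hx u)
    have a2 := k2 _ (blk_ver_mem h hx u)
    rw [Gam] at a1 a2 k0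
    conv_lhs => rw [decomp J x u, Gam]
    rw [VW.tm_add, VW.tm_add, VW.tm_smul, Matrix.mul_add, Matrix.mul_add, Matrix.mul_smul,
      Matrix.trace_add, Matrix.trace_add, Matrix.trace_smul, a1, a2, k0, smul_eq_mul]
    field_simp
    ring
  simpa [Matrix.trace] using k (Pi.single i 1)

end Vale.Agent.P366N
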