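import Vale.Agent.P366N.Alg

/-! Special values of `Tm`. -/

namespace Vale.Agent.P366N

open scoped Matrix
open Matrix
open Vale.Agent.P366 (Pt)

noncomputable def Am (J : Fin 9 → Matrix (Fin 16) (Fin 16) ℝ) (x y : Pt 16) :
    Matrix (Fin 16) (Fin 16) ℝ :=
  Em J x y - (2 : ℝ) • vecMulVec y x

def BmStmt : Prop :=
  ∀ (J : Fin 9 → Matrix (Fin 16) (Fin 16) ℝ) (x : Pt 16), IsCliff J → x ≠ 0 →
    Bm J x x = (2 * (x ⬝ᵥ x)) • prL J x ∧ (∀ u, (Bm J x u)ᵀ = Bm J x u) ∧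
    (∀ u w, Em J x u *ᵥ w = Bm J x w *ᵥ u) ∧
    (∀ y, Ver J x y → Bm J x y = 0) ∧
    ∀ v, Hor J x v → Bm J x v *ᵥ x = (x ⬝ᵥ x) • v ∧
      Bm J x v * prL J x = (1 - prL J x) * Bm J x v ∧
      ∀ w, Hor J x w → Bm J x v * Bm J x w + Bm J x w * Bm J x v =
          (2 * (x ⬝ᵥ x) * (v ⬝ᵥ w)) • (1 : Matrix (Fin 16) (Fin 16) ℝ) ∧
        Bm J x v *ᵥ w + Bm J x w *ᵥ v = (2 * (v ⬝ᵥ w)) • x

def TmStmt : Prop :=
  ∀ (J : Fin 9 → Matrix (Fin 16) (Fin 16) ℝ) (x : Pt 16) (A B C A' B' C' : ℝ), IsCliff J → x ≠ 0 →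
    Tm J x A B C A' B' C' x = (x ⬝ᵥ x) • blk J x A' B' C' ∧
    (∀ v, Hor J x v → Tm J x A B C A' B' C' v =
        ((A - C) / (x ⬝ᵥ x) - C') • vecMulVec x v + C' • vecMulVec v x
          + ((B - C) / (x ⬝ᵥ x)) • (Bm J x v * blk J x 0 1 0) ∧
      blk J x 0 0 1 * (Bm J x v * blk J x 0 1 0) = Bm J x v * blk J x 0 1 0) ∧
    ∀ y, Ver J x y → Tm J x A B C A' B' C' y =
        ((A - B) / (x ⬝ᵥ x) - B') • vecMulVec x y + B' • vecMulVec y x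
          + ((B - C) / (x ⬝ᵥ x)) • Am J x y ∧
      blk J x 0 0 1 * Am J x y = Am J x y ∧ Am J x y * blk J x 0 0 1 = Am J x y ∧
      (Am J x y)ᵀ = -Am J x y ∧
      (Am J x y * Am J x y).trace = -(8 * (x ⬝ᵥ x) * (y ⬝ᵥ y))

end Vale.Agent.P366N
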