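import Vale.Agent.P366N.Stm
import Vale.Agent.P366.Alg

/-! Algebra of the block matrices (`Spin(9)` case). -/

namespace Vale.Agent.P366N

open scoped Matrix
open Matrix
open Vale.Agent.P366 (Pt pr0 dot_pos sum_mul_mul sum_mul_trace)

variable {J : Fin 9 → Matrix (Fin 16) (Fin 16) ℝ}

theorem IsCliff.symm_dot (h : IsCliff J) (i : Fin 9) (u v : Pt 16) :
    (J i *ᵥ u) ⬝ᵥ v = u ⬝ᵥ (J i *ᵥ v) := by
  rw [dotProduct_comm, Matrix.dotProduct_mulVec, ← Matrix.mulVec_transpose, h.1, dotProduct_comm]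

theorem IsCliff.anti (h : IsCliff J) (i j : Fin 9) :
    J i * J j + J j * J i = if i = j then (2 : ℝ) • (1 : Matrix (Fin 16) (Fin 16) ℝ) else 0 := by
  split_ifs with hij
  · subst hij; rw [h.2.1, two_smul]
  · rw [h.2.2 i j hij]; simp

theorem IsCliff.cl (h : IsCliff J) (a b : Fin 9 → ℝ) :
    (∑ i, a i • J i) * (∑ i, b i • J i) + (∑ i, b i • J i) * (∑ i, a i • J i) =
      (2 * ∑ i, a i * b i) • (1 : Matrix (Fin 16) (Fin 16) ℝ) := by
  have e : (∑ i, b i • J i) * (∑ i, a i • J i) = ∑ i, ∑ j, (a i * b j) • (J j * J i) := by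
    rw [Finset.sum_mul_sum, Finset.sum_comm]
    exact Finset.sum_congr rfl fun i _ => Finset.sum_congr rfl fun j _ => by
      rw [smul_mul_smul_comm, mul_comm (b j)]
  rw [e, Finset.sum_mul_sum, ← Finset.sum_add_distrib, Finset.mul_sum, Finset.sum_smul]
  refine Finset.sum_congr rfl fun i _ => ?_
  rw [← Finset.sum_add_distrib]
  simp only [smul_mul_smul_comm, ← smul_add, h.anti, smul_ite, smul_zero, Finset.sum_ite_eq,
    Finset.mem_univ, if_true, smul_smul]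
  congr 1; ring

theorem IsCliff.sq (h : IsCliff J) (a : Fin 9 → ℝ) :
    (∑ i, a i • J i) * (∑ i, a i • J i) = (∑ i, a i * a i) • (1 : Matrix (Fin 16) (Fin 16) ℝ) := by
  have := h.cl a a
  rw [← two_smul ℝ, mul_smul] at this
  exact smul_right_injective _ two_ne_zero this

theorem IsCliff.trace (h : IsCliff J) (i : Fin 9) : (J i).trace = 0 := by
  obtain ⟨j, hj⟩ := exists_ne i
  have e : J i = -(J j * J i * J j) := by
    rw [h.2.2 j i hj, Matrix.neg_mul, neg_neg, Matrix.mul_assoc, h.2.1, Matrix.mul_one]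
  have := congrArg Matrix.trace e
  rw [Matrix.trace_neg, Matrix.trace_mul_cycle, h.2.1, Matrix.one_mul] at this
  linarith

theorem proj_eq_zero {P : Matrix (Fin 16) (Fin 16) ℝ} (hT : Pᵀ = P) (hP : P * P = P)
    (ht : P.trace = 0) : P = 0 := by
  have : (Pᵀ * P).trace = 0 := by rw [hT, hP, ht]
  rw [← sum_mul_trace] at this
  ext i j
  have h1 := (Finset.sum_eq_zero_iff_of_nonneg (fun i _ =>
    Finset.sum_nonneg fun j _ => mul_self_nonneg (P i j))).1 this i (Finset.mem_univ _)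
  have h2 := (Finset.sum_eq_zero_iff_of_nonneg (fun j _ => mul_self_nonneg (P i j))).1 h1 j
    (Finset.mem_univ _)
  exact mul_self_eq_zero.1 h2

theorem IsCliff.dot_zz (h : IsCliff J) (i j : Fin 9) (x : Pt 16) :
    (J i *ᵥ x) ⬝ᵥ (J j *ᵥ x) = if i = j then x ⬝ᵥ x else 0 := by
  have e1 : (J i *ᵥ x) ⬝ᵥ (J j *ᵥ x) = x ⬝ᵥ ((J i * J j) *ᵥ x) := by
    rw [h.symm_dot, Matrix.mulVec_mulVec]
  have e2 : (J i *ᵥ x) ⬝ᵥ (J j *ᵥ x) = x ⬝ᵥ ((J j * J i) *ᵥ x) := by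
    rw [dotProduct_comm, h.symm_dot, Matrix.mulVec_mulVec]
  have e3 := congrArg (fun M => x ⬝ᵥ (M *ᵥ x)) (h.anti i j)
  simp only [Matrix.add_mulVec, dotProduct_add, ← e1, ← e2] at e3
  split_ifs at e3 ⊢ with hij
  · simp [Matrix.smul_mulVec] at e3; linarith
  · simp at e3; linarith

theorem proj_eq {P Z : Matrix (Fin 16) (Fin 16) ℝ} (hT : Pᵀ = P) (hP : P * P = P) (hZT : Zᵀ = Z)
    (hZ : Z * Z = Z) (hPZ : P * Z = Z) (ht : P.trace = Z.trace) : P = Z := by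
  have hZP : Z * P = Z := by
    have := congrArg Matrix.transpose hPZ
    rwa [Matrix.transpose_mul, hT, hZT] at this
  refine sub_eq_zero.1 (proj_eq_zero (by rw [Matrix.transpose_sub, hT, hZT]) ?_ ?_)
  · rw [Matrix.sub_mul, Matrix.mul_sub, Matrix.mul_sub, hP, hPZ, hZP, hZ]; simp
  · rw [Matrix.trace_sub, ht, sub_self]

theorem frame_proj (h : IsCliff J) (F : Finset (Fin 9)) {x : Pt 16} (hx : x ≠ 0) :
    ((x ⬝ᵥ x)⁻¹ • ∑ i ∈ F, vecMulVec (J i *ᵥ x) (J i *ᵥ x))ᵀ =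
      (x ⬝ᵥ x)⁻¹ • ∑ i ∈ F, vecMulVec (J i *ᵥ x) (J i *ᵥ x) ∧
    ((x ⬝ᵥ x)⁻¹ • ∑ i ∈ F, vecMulVec (J i *ᵥ x) (J i *ᵥ x)) *
      ((x ⬝ᵥ x)⁻¹ • ∑ i ∈ F, vecMulVec (J i *ᵥ x) (J i *ᵥ x)) =
      (x ⬝ᵥ x)⁻¹ • ∑ i ∈ F, vecMulVec (J i *ᵥ x) (J i *ᵥ x) ∧
    ((x ⬝ᵥ x)⁻¹ • ∑ i ∈ F, vecMulVec (J i *ᵥ x) (J i *ᵥ x)).trace = F.card := by
  have := (dot_pos hx).ne'
  refine ⟨by simp [Matrix.transpose_sum], ?_, ?_⟩
  · rw [smul_mul_smul_comm, Finset.sum_mul_sum]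
    have e : ∀ i ∈ F, ∑ j ∈ F, vecMulVec (J i *ᵥ x) (J i *ᵥ x) * vecMulVec (J j *ᵥ x) (J j *ᵥ x)
        = (x ⬝ᵥ x) • vecMulVec (J i *ᵥ x) (J i *ᵥ x) := by
      intro i hi
      simp only [vecMulVec_mul_vecMulVec, h.dot_zz, ite_smul, zero_smul, apply_ite (vecMulVec _),
        vecMulVec_zero, Finset.sum_ite_eq, hi, if_true, vecMulVec_smul]
    rw [Finset.sum_congr rfl e, ← Finset.smul_sum, smul_smul]
    congr 1
    field_simp
  · simp only [Matrix.trace_smul, Matrix.trace_sum, Matrix.trace_vecMulVec, h.dot_zz, if_true,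
      Finset.sum_const, nsmul_eq_mul, smul_eq_mul]
    field_simp

theorem quart_aux (h : IsCliff J) {a b : Pt 16} (ha : J 0 *ᵥ a = a) (hb : J 0 *ᵥ b = -b) :
    ∑ i ∈ Finset.univ.erase 0, ((J i *ᵥ a) ⬝ᵥ b) ^ 2 = (a ⬝ᵥ a) * (b ⬝ᵥ b) := by
  by_cases ha0 : a = 0
  · simp [ha0]
  have hpos := (dot_pos ha0).ne'
  obtain ⟨z1, z2, z3⟩ := frame_proj h (Finset.univ.erase 0) ha0
  have hz : ∀ i, i ≠ 0 → J 0 *ᵥ (J i *ᵥ a) = -(J i *ᵥ a) := fun i hi => by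
    rw [Matrix.mulVec_mulVec, h.2.2 0 i hi.symm, Matrix.neg_mulVec, ← Matrix.mulVec_mulVec, ha]
  have key := proj_eq (P := (1 / 2 : ℝ) • (1 - J 0)) (by simp [h.1]) (by
      simp only [smul_mul_smul_comm, Matrix.sub_mul, Matrix.mul_sub, Matrix.one_mul,
        Matrix.mul_one, h.2.1]
      module) z1 z2 (by
      rw [Matrix.mul_smul, Matrix.mul_sum]
      congr 1
      refine Finset.sum_congr rfl fun i hi => ?_
      rw [mul_vecMulVec, Matrix.smul_mulVec, Matrix.sub_mulVec, Matrix.one_mulVec,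
        hz i (Finset.ne_of_mem_erase hi)]
      congr 1
      module) (by rw [z3]; simp [h.trace]; norm_num)
  have e := congrArg (fun M => b ⬝ᵥ (M *ᵥ b)) key
  simp only [Matrix.smul_mulVec, Matrix.sub_mulVec, Matrix.one_mulVec, hb, Matrix.sum_mulVec,
    vecMulVec_mulVec, op_smul_eq_smul, dotProduct_smul, dotProduct_sub, dotProduct_neg,
    dotProduct_sum, smul_eq_mul] at e
  have e2 : ∑ i ∈ Finset.univ.erase 0, ((J i *ᵥ a) ⬝ᵥ b) ^ 2 =
      ∑ i ∈ Finset.univ.erase 0, (J i *ᵥ a) ⬝ᵥ b * b ⬝ᵥ (J i *ᵥ a) :=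
    Finset.sum_congr rfl fun i _ => by rw [sq, dotProduct_comm b]
  rw [e2]
  field_simp at e
  linarith

theorem quart_pf : QuartStmt := by
  intro J x h
  set a : Pt 16 := (1 / 2 : ℝ) • (x + J 0 *ᵥ x) with ha
  set b : Pt 16 := (1 / 2 : ℝ) • (x - J 0 *ᵥ x) with hb
  have h00 : J 0 *ᵥ (J 0 *ᵥ x) = x := by rw [Matrix.mulVec_mulVec, h.2.1, Matrix.one_mulVec]
  have ha' : J 0 *ᵥ a = a := by
    rw [ha, Matrix.mulVec_smul, Matrix.mulVec_add, h00, add_comm]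
  have hb' : J 0 *ᵥ b = -b := by
    rw [hb, Matrix.mulVec_smul, Matrix.mulVec_sub, h00]; module
  have hx : x = a + b := by rw [ha, hb]; module
  clear_value a b
  have hab : a ⬝ᵥ b = 0 := by
    have := h.symm_dot 0 a b
    rw [ha', hb', dotProduct_neg] at this
    linarith
  have hz : ∀ i, i ≠ 0 → ∀ u : Pt 16, u ⬝ᵥ (J i *ᵥ u) = -((J 0 *ᵥ u) ⬝ᵥ (J i *ᵥ (J 0 *ᵥ u))) := by
    intro i hi u
    rw [h.symm_dot, Matrix.mulVec_mulVec, Matrix.mulVec_mulVec, h.2.2 0 i hi.symm, Matrix.neg_mul,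
      Matrix.mul_assoc, h.2.1, Matrix.mul_one, Matrix.neg_mulVec, dotProduct_neg, neg_neg]
  have e : ∀ i ∈ Finset.univ.erase (0 : Fin 9), (x ⬝ᵥ (J i *ᵥ x)) ^ 2 =
      4 * ((J i *ᵥ a) ⬝ᵥ b) ^ 2 := by
    intro i hi
    have hi' := Finset.ne_of_mem_erase hi
    have e1 := hz i hi' a
    have e2 := hz i hi' b
    rw [ha'] at e1
    rw [hb', Matrix.mulVec_neg, neg_dotProduct_neg] at e2
    have e3 := h.symm_dot i a b
    rw [hx, Matrix.mulVec_add, add_dotProduct, dotProduct_add, dotProduct_add, ← e3,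
      dotProduct_comm b (J i *ᵥ a)]
    have e4 : a ⬝ᵥ (J i *ᵥ a) = 0 := by linarith
    have e5 : b ⬝ᵥ (J i *ᵥ b) = 0 := by linarith
    rw [e4, e5]; ring
  rw [← Finset.add_sum_erase _ _ (Finset.mem_univ 0), Finset.sum_congr rfl e, ← Finset.mul_sum,
    quart_aux h ha' hb', hx, Matrix.mulVec_add, ha', hb']
  simp only [add_dotProduct, dotProduct_add, dotProduct_neg, hab, dotProduct_comm b a]
  ring

theorem lin (h : IsCliff J) (x : Pt 16) :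
    (∑ i, (x ⬝ᵥ (J i *ᵥ x)) • J i) *ᵥ x = (x ⬝ᵥ x) • x := by
  set s : Fin 9 → ℝ := fun i => x ⬝ᵥ (J i *ᵥ x) with hs
  have hq : ∑ i, s i * s i = (x ⬝ᵥ x) ^ 2 := by
    rw [← quart_pf J x h]; exact Finset.sum_congr rfl fun i _ => (sq _).symm
  set M := ∑ i, s i • J i with hM
  have hMT : Mᵀ = M := by simp [hM, Matrix.transpose_sum, h.1]
  have h1 : x ⬝ᵥ (M *ᵥ x) = (x ⬝ᵥ x) ^ 2 := by
    rw [← hq, hM, Matrix.sum_mulVec, dotProduct_sum]
    exact Finset.sum_congr rfl fun i _ => by rw [Matrix.smul_mulVec, dotProduct_smul]; rfl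
  have h2 : (M *ᵥ x) ⬝ᵥ (M *ᵥ x) = (x ⬝ᵥ x) ^ 3 := by
    rw [Matrix.dotProduct_mulVec, ← Matrix.mulVec_transpose, hMT, Matrix.mulVec_mulVec, hM, h.sq,
      hq, Matrix.smul_mulVec, Matrix.one_mulVec, smul_dotProduct, smul_eq_mul]
    ring
  have h3 : (M *ᵥ x - (x ⬝ᵥ x) • x) ⬝ᵥ (M *ᵥ x - (x ⬝ᵥ x) • x) = 0 := by
    simp only [sub_dotProduct, dotProduct_sub, smul_dotProduct, dotProduct_smul, smul_eq_mul, h2,
      dotProduct_comm (M *ᵥ x) x, h1]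
    ring
  exact sub_eq_zero.1 (dotProduct_self_eq_zero.1 h3)

theorem prL_x (h : IsCliff J) {x : Pt 16} (hx : x ≠ 0) : prL J x *ᵥ x = x := by
  have := (dot_pos hx).ne'
  rw [prL, Matrix.smul_mulVec, Matrix.add_mulVec, Matrix.smul_mulVec, lin h, smul_smul,
    inv_mul_cancel₀ this, Matrix.one_mulVec]
  module

theorem prL_mul (h : IsCliff J) {x : Pt 16} (hx : x ≠ 0) : prL J x * prL J x = prL J x := by
  have := (dot_pos hx).ne'
  have hq : ∑ i, (x ⬝ᵥ (J i *ᵥ x)) * (x ⬝ᵥ (J i *ᵥ x)) = (x ⬝ᵥ x) ^ 2 := by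
    rw [← quart_pf J x h]; exact Finset.sum_congr rfl fun i _ => (sq _).symm
  have e := h.sq fun i => x ⬝ᵥ (J i *ᵥ x)
  rw [hq] at e
  simp only [prL, smul_mul_smul_comm, Matrix.add_mul, Matrix.mul_add, Matrix.one_mul,
    Matrix.mul_one, e, smul_smul]
  have : (x ⬝ᵥ x)⁻¹ * (x ⬝ᵥ x)⁻¹ * (x ⬝ᵥ x) ^ 2 = 1 := by field_simp
  rw [this]
  module

theorem prL_T (h : IsCliff J) (x : Pt 16) : (prL J x)ᵀ = prL J x := by
  simp [prL, Matrix.transpose_sum, h.1]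

theorem prL_trace (h : IsCliff J) (x : Pt 16) : (prL J x).trace = 8 := by
  simp [prL, Matrix.trace_sum, h.trace]; norm_num

theorem prL_z (h : IsCliff J) {x : Pt 16} (hx : x ≠ 0) (i : Fin 9) :
    prL J x *ᵥ (J i *ᵥ x) = ((x ⬝ᵥ (J i *ᵥ x)) / (x ⬝ᵥ x)) • x := by
  have hp := (dot_pos hx).ne'
  have e := h.cl (fun j => x ⬝ᵥ (J j *ᵥ x)) (Pi.single i 1)
  have e1 : ∑ j, (Pi.single i (1 : ℝ) : Fin 9 → ℝ) j • J j = J i := by
    simp [Pi.single_apply]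
  have e2 : ∑ j, (x ⬝ᵥ (J j *ᵥ x)) * (Pi.single i (1 : ℝ) : Fin 9 → ℝ) j = x ⬝ᵥ (J i *ᵥ x) := by
    simp [Pi.single_apply]
  rw [e1, e2] at e
  have e3 := congrArg (fun M => M *ᵥ x) e
  simp only [Matrix.add_mulVec, ← Matrix.mulVec_mulVec, lin h, Matrix.smul_mulVec,
    Matrix.one_mulVec, Matrix.mulVec_smul] at e3
  rw [prL, Matrix.smul_mulVec, Matrix.add_mulVec, Matrix.smul_mulVec, Matrix.one_mulVec,
    eq_sub_of_add_eq e3, smul_sub, smul_smul, smul_smul, inv_mul_cancel₀ hp, div_eq_mul_inv]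
  module

theorem pr0_mulVec (x u : Pt 16) : pr0 x *ᵥ u = ((x ⬝ᵥ u) / (x ⬝ᵥ x)) • x := by
  rw [pr0, Matrix.smul_mulVec, vecMulVec_mulVec, op_smul_eq_smul, smul_smul, div_eq_inv_mul]

theorem pr0_T (x : Pt 16) : (pr0 x)ᵀ = pr0 x := by simp [pr0]

theorem pr0_mul {x : Pt 16} (hx : x ≠ 0) : pr0 x * pr0 x = pr0 x := by
  have hp := (dot_pos hx).ne'
  rw [pr0, smul_mul_smul_comm, vecMulVec_mul_vecMulVec, vecMulVec_smul, smul_smul]
  congr 1
  field_simp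

theorem prL_pr0 (h : IsCliff J) {x : Pt 16} (hx : x ≠ 0) : prL J x * pr0 x = pr0 x := by
  rw [pr0, Matrix.mul_smul, mul_vecMulVec, prL_x h hx]

theorem pr0_prL (h : IsCliff J) {x : Pt 16} (hx : x ≠ 0) : pr0 x * prL J x = pr0 x := by
  have := congrArg Matrix.transpose (prL_pr0 h hx)
  rwa [Matrix.transpose_mul, pr0_T, prL_T h] at this

theorem pr0_trace {x : Pt 16} (hx : x ≠ 0) : (pr0 x).trace = 1 := by
  have hp := (dot_pos hx).ne'
  rw [pr0, Matrix.trace_smul, Matrix.trace_vecMulVec, smul_eq_mul, inv_mul_cancel₀ hp]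

/-- The Fierz identity. -/
theorem fierz (h : IsCliff J) {x : Pt 16} (hx : x ≠ 0) :
    ∑ i, vecMulVec (J i *ᵥ x) (J i *ᵥ x) = vecMulVec x x + (x ⬝ᵥ x) • (1 - prL J x) := by
  have hp := (dot_pos hx).ne'
  obtain ⟨z1, z2, z3⟩ := frame_proj h Finset.univ hx
  have key := proj_eq (P := pr0 x + (1 - prL J x)) (by simp [pr0_T, prL_T h]) (by
      simp only [Matrix.add_mul, Matrix.mul_add, Matrix.sub_mul, Matrix.mul_sub, Matrix.one_mul,
        Matrix.mul_one, pr0_mul hx, prL_pr0 h hx, pr0_prL h hx, prL_mul h hx]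
      abel) z1 z2 (by
      rw [Matrix.mul_smul, Matrix.mul_sum]
      congr 1
      refine Finset.sum_congr rfl fun i _ => ?_
      rw [mul_vecMulVec, Matrix.add_mulVec, Matrix.sub_mulVec, Matrix.one_mulVec, prL_z h hx,
        pr0_mulVec]
      congr 1
      abel) (by rw [z3]; simp [pr0_trace hx, prL_trace h]; norm_num)
  have := congrArg (fun M => (x ⬝ᵥ x) • M) key
  simp only [smul_smul, mul_inv_cancel₀ hp, one_smul, smul_add, pr0] at this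
  exact this.symm

/-- Horizontal vectors at `x`. -/
def Hor (J : Fin 9 → Matrix (Fin 16) (Fin 16) ℝ) (x v : Pt 16) : Prop := prL J x *ᵥ v = 0

/-- Vertical vectors at `x`. -/
def Ver (J : Fin 9 → Matrix (Fin 16) (Fin 16) ℝ) (x y : Pt 16) : Prop :=
  prL J x *ᵥ y = y ∧ x ⬝ᵥ y = 0

theorem prL_dot (h : IsCliff J) (x u v : Pt 16) : (prL J x *ᵥ u) ⬝ᵥ v = u ⬝ᵥ (prL J x *ᵥ v) := by
  rw [dotProduct_comm, Matrix.dotProduct_mulVec, ← Matrix.mulVec_transpose, prL_T h,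
    dotProduct_comm]

theorem Hor.x_dot (h : IsCliff J) {x v : Pt 16} (hx : x ≠ 0) (hv : Hor J x v) : x ⬝ᵥ v = 0 := by
  rw [← prL_x h hx, prL_dot h, hv, dotProduct_zero]

theorem Hor.ver_dot (h : IsCliff J) {x y v : Pt 16} (hy : Ver J x y) (hv : Hor J x v) :
    y ⬝ᵥ v = 0 := by
  rw [← hy.1, prL_dot h, hv, dotProduct_zero]

theorem Ver.z_dot (h : IsCliff J) {x y : Pt 16} (hx : x ≠ 0) (hy : Ver J x y) (i : Fin 9) :
    (J i *ᵥ x) ⬝ᵥ y = 0 := by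
  rw [← hy.1, ← prL_dot h, prL_z h hx, smul_dotProduct, hy.2, smul_zero]

theorem blk_mulVec (J : Fin 9 → Matrix (Fin 16) (Fin 16) ℝ) (x u : Pt 16) (A B C : ℝ) :
    blk J x A B C *ᵥ u = C • u + ((A - B) / (x ⬝ᵥ x) * (x ⬝ᵥ u)) • x
      + (B - C) • (prL J x *ᵥ u) := by
  simp only [blk, Matrix.add_mulVec, Matrix.smul_mulVec, Matrix.sub_mulVec,
    Matrix.one_mulVec, pr0_mulVec, div_eq_mul_inv]
  module

theorem blk_eq (J : Fin 9 → Matrix (Fin 16) (Fin 16) ℝ) (x : Pt 16) (A B C : ℝ) :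
    blk J x A B C = C • (1 : Matrix (Fin 16) (Fin 16) ℝ) + ((A - B) / (x ⬝ᵥ x)) • vecMulVec x x
      + (B - C) • prL J x := by
  simp only [blk, pr0, div_eq_mul_inv]
  module

theorem blk_x (h : IsCliff J) {x : Pt 16} (hx : x ≠ 0) (A B C : ℝ) :
    blk J x A B C *ᵥ x = A • x := by
  have := (dot_pos hx).ne'
  rw [blk_mulVec, prL_x h hx, div_mul_cancel₀ _ this]
  module

theorem blk_ver {x y : Pt 16} (hy : Ver J x y) (A B C : ℝ) : blk J x A B C *ᵥ y = B • y := by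
  rw [blk_mulVec, hy.1, hy.2]
  module

theorem blk_hor (h : IsCliff J) {x v : Pt 16} (hx : x ≠ 0) (hv : Hor J x v) (A B C : ℝ) :
    blk J x A B C *ᵥ v = C • v := by
  rw [blk_mulVec, hv, hv.x_dot h hx]
  module

theorem blk_T (h : IsCliff J) (x : Pt 16) (A B C : ℝ) : (blk J x A B C)ᵀ = blk J x A B C := by
  rw [blk_eq]
  simp [prL_T h]

theorem blk_symm (h : IsCliff J) (x : Pt 16) (A B C : ℝ) (i j : Fin 16) :
    blk J x A B C i j = blk J x A B C j i := by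
  conv_lhs => rw [← blk_T h]
  rfl

theorem blk_one (J : Fin 9 → Matrix (Fin 16) (Fin 16) ℝ) (x : Pt 16) : blk J x 1 1 1 = 1 := by
  rw [blk_eq]; simp

theorem blk_mul (h : IsCliff J) {x : Pt 16} (hx : x ≠ 0) (A B C A' B' C' : ℝ) :
    blk J x A B C * blk J x A' B' C' = blk J x (A * A') (B * B') (C * C') := by
  simp only [blk, Matrix.add_mul, Matrix.mul_add, Matrix.sub_mul, Matrix.mul_sub, Matrix.one_mul,
    Matrix.mul_one, Matrix.smul_mul, Matrix.mul_smul, pr0_mul hx, prL_pr0 h hx, pr0_prL h hx,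
    prL_mul h hx]
  module

theorem blk_hor_mem (h : IsCliff J) {x : Pt 16} (hx : x ≠ 0) (u : Pt 16) :
    Hor J x (blk J x 0 0 1 *ᵥ u) := by
  simp [Hor, blk, Matrix.mulVec_mulVec, Matrix.mul_sub, prL_mul h hx]

theorem blk_ver_mem (h : IsCliff J) {x : Pt 16} (hx : x ≠ 0) (u : Pt 16) :
    Ver J x (blk J x 0 1 0 *ᵥ u) := by
  constructor
  · simp [blk, Matrix.mulVec_mulVec, Matrix.mul_sub, prL_mul h hx, prL_pr0 h hx]
  · rw [Matrix.dotProduct_mulVec, ← Matrix.mulVec_transpose, blk_T h, blk_x h hx]; simp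

/-- Decomposition of a vector. -/
theorem decomp (J : Fin 9 → Matrix (Fin 16) (Fin 16) ℝ) (x u : Pt 16) :
    u = blk J x 0 0 1 *ᵥ u + ((x ⬝ᵥ u) / (x ⬝ᵥ x)) • x + blk J x 0 1 0 *ᵥ u := by
  rw [blk_mulVec, blk_mulVec]
  simp only [div_eq_mul_inv]
  module

theorem blk_add (J : Fin 9 → Matrix (Fin 16) (Fin 16) ℝ) (x : Pt 16) (A B C A' B' C' : ℝ) :
    blk J x A B C + blk J x A' B' C' = blk J x (A + A') (B + B') (C + C') := by
  simp only [blk]; module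

theorem blk_sub (J : Fin 9 → Matrix (Fin 16) (Fin 16) ℝ) (x : Pt 16) (A B C A' B' C' : ℝ) :
    blk J x A B C - blk J x A' B' C' = blk J x (A - A') (B - B') (C - C') := by
  simp only [blk]; module

theorem blk_smul (J : Fin 9 → Matrix (Fin 16) (Fin 16) ℝ) (x : Pt 16) (s A B C : ℝ) :
    s • blk J x A B C = blk J x (s * A) (s * B) (s * C) := by
  simp only [blk]; module

theorem blk_trace (h : IsCliff J) {x : Pt 16} (hx : x ≠ 0) (A B C : ℝ) :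
    (blk J x A B C).trace = A + 7 * B + 8 * C := by
  simp only [blk, Matrix.trace_add, Matrix.trace_smul, Matrix.trace_sub, Matrix.trace_one,
    pr0_trace hx, prL_trace h, smul_eq_mul, Fintype.card_fin]
  push_cast
  ring

theorem blk_inv (h : IsCliff J) {x : Pt 16} (hx : x ≠ 0) {A B C : ℝ} (hA : A ≠ 0) (hB : B ≠ 0)
    (hC : C ≠ 0) : (blk J x A B C)⁻¹ = blk J x A⁻¹ B⁻¹ C⁻¹ := by
  apply Matrix.inv_eq_right_inv
  rw [blk_mul h hx, mul_inv_cancel₀ hA, mul_inv_cancel₀ hB, mul_inv_cancel₀ hC, blk_one]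

theorem blk_det_ne (h : IsCliff J) {x : Pt 16} (hx : x ≠ 0) {A B C : ℝ} (hA : A ≠ 0) (hB : B ≠ 0)
    (hC : C ≠ 0) : (blk J x A B C).det ≠ 0 := by
  have : blk J x A B C * blk J x A⁻¹ B⁻¹ C⁻¹ = 1 := by
    rw [blk_mul h hx, mul_inv_cancel₀ hA, mul_inv_cancel₀ hB, mul_inv_cancel₀ hC, blk_one]
  exact (Matrix.isUnit_det_of_right_inverse this).ne_zero

/-- Contraction of a bilinear form with a block matrix. -/
theorem contract (h : IsCliff J) {x : Pt 16} (hx : x ≠ 0) (F : Pt 16 →ₗ[ℝ] Pt 16 →ₗ[ℝ] ℝ)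
    (α β γ κ ι : ℝ) (hF : ∀ v, Hor J x v → F v v = κ * (v ⬝ᵥ v))
    (hG : ∀ y, Ver J x y → F y y = ι * (y ⬝ᵥ y)) :
    ∑ i, ∑ j, blk J x α β γ i j * F (Pi.single i 1) (Pi.single j 1) =
      α / (x ⬝ᵥ x) * F x x + β * ι * 7 + γ * κ * 8 := by
  have key : ∀ u v : Pt 16, ∑ i, ∑ j, vecMulVec u v i j * F (Pi.single i 1) (Pi.single j 1)
      = F u v := by
    intro u v
    conv_rhs => rw [pi_eq_sum_univ' u, pi_eq_sum_univ' v]
    simp only [map_sum, map_smul, LinearMap.sum_apply, LinearMap.smul_apply, smul_eq_mul,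
      Finset.mul_sum, vecMulVec_apply]
    rw [Finset.sum_comm]
    exact Finset.sum_congr rfl fun i _ => Finset.sum_congr rfl fun j _ => by ring
  have hPP : ∀ Pm : Matrix (Fin 16) (Fin 16) ℝ, Pm = Pm * Pmᵀ →
      Pm = ∑ k, vecMulVec (Pm *ᵥ Pi.single k 1) (Pm *ᵥ Pi.single k 1) ∧
      ∑ k, (Pm *ᵥ Pi.single k 1) ⬝ᵥ (Pm *ᵥ Pi.single k 1) = Pm.trace := by
    intro Pm hm
    have e : Pm = ∑ k, vecMulVec (Pm *ᵥ Pi.single k 1) (Pm *ᵥ Pi.single k 1) := by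
      ext i j
      conv_lhs => rw [hm]
      simp [Matrix.mul_apply, Matrix.sum_apply, vecMulVec_apply]
    refine ⟨e, ?_⟩
    have := congrArg Matrix.trace e
    rw [Matrix.trace_sum] at this
    simp only [Matrix.trace_vecMulVec] at this
    exact this.symm
  obtain ⟨p1, p2⟩ := hPP (blk J x 0 0 1) (by rw [blk_T h, blk_mul h hx]; simp)
  obtain ⟨q1, q2⟩ := hPP (blk J x 0 1 0) (by rw [blk_T h, blk_mul h hx]; simp)
  rw [blk_trace h hx] at p2 q2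
  have hb : blk J x α β γ = (α / (x ⬝ᵥ x)) • vecMulVec x x
      + β • ∑ k, vecMulVec (blk J x 0 1 0 *ᵥ Pi.single k 1) (blk J x 0 1 0 *ᵥ Pi.single k 1)
      + γ • ∑ k, vecMulVec (blk J x 0 0 1 *ᵥ Pi.single k 1) (blk J x 0 0 1 *ᵥ Pi.single k 1) := by
    rw [← p1, ← q1, blk_eq, blk_eq, blk_eq]
    simp only [div_eq_mul_inv]
    module
  have h3 : ∑ k, F (blk J x 0 0 1 *ᵥ Pi.single k 1) (blk J x 0 0 1 *ᵥ Pi.single k 1) = κ * 8 := by
    rw [Finset.sum_congr rfl fun k _ => hF _ (blk_hor_mem h hx _), ← Finset.mul_sum, p2]; ring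
  have h4 : ∑ k, F (blk J x 0 1 0 *ᵥ Pi.single k 1) (blk J x 0 1 0 *ᵥ Pi.single k 1) = ι * 7 := by
    rw [Finset.sum_congr rfl fun k _ => hG _ (blk_ver_mem h hx _), ← Finset.mul_sum, q2]; ring
  let L : Matrix (Fin 16) (Fin 16) ℝ →ₗ[ℝ] ℝ :=
    { toFun := fun M => ∑ i, ∑ j, M i j * F (Pi.single i 1) (Pi.single j 1)
      map_add' := fun M N => by simp only [Matrix.add_apply, add_mul, Finset.sum_add_distrib]
      map_smul' := fun c M => by
        simp only [Matrix.smul_apply, smul_eq_mul, Finset.mul_sum, mul_assoc, RingHom.id_apply] }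
  have key' : ∀ u v : Pt 16, L (vecMulVec u v) = F u v := key
  change L (blk J x α β γ) = _
  rw [hb]
  simp only [map_add, map_smul, map_sum, key', smul_eq_mul, h3, h4, mul_assoc]

end Vale.Agent.P366N
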