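import Vale.Agent.P366.Defs

/-! The `Spin(9)`-invariant ansatz on `ℝ^16`. -/

namespace Vale.Agent.P366N

open scoped Matrix
open Vale.Agent.P366

/-- A `Spin(9)` structure on `ℝ^16`: nine symmetric anticommuting involutions. -/
def IsCliff (S : Fin 9 → Matrix (Fin 16) (Fin 16) ℝ) : Prop :=
  (∀ i, (S i)ᵀ = S i) ∧ (∀ i, S i * S i = 1) ∧ ∀ i j, i ≠ j → S i * S j = -(S j * S i)

/-- The orthogonal projection on the octonionic line through `x`. -/
noncomputable def prL (S : Fin 9 → Matrix (Fin 16) (Fin 16) ℝ) (x : Pt 16) :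
    Matrix (Fin 16) (Fin 16) ℝ :=
  (1 / 2 : ℝ) • (1 + (x ⬝ᵥ x)⁻¹ • ∑ i, (x ⬝ᵥ (S i *ᵥ x)) • S i)

/-- The symmetric matrix with eigenvalue `A` on the radial line, `B` on the tangent space of the
Hopf fibre `S^7` and `C` on the horizontal space at `x`. -/
noncomputable def blk (S : Fin 9 → Matrix (Fin 16) (Fin 16) ℝ) (x : Pt 16) (A B C : ℝ) :
    Matrix (Fin 16) (Fin 16) ℝ :=
  A • pr0 x + B • (prL S x - pr0 x) + C • (1 - prL S x)

/-- The `Spin(9)`-invariant symmetric 2-tensor with eigenvalues `A, B, C` at `|x|^2`. -/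
noncomputable def hopf (S : Fin 9 → Matrix (Fin 16) (Fin 16) ℝ) (A B C : ℝ → ℝ) : Ten 16 :=
  fun x => blk S x (A (x ⬝ᵥ x)) (B (x ⬝ᵥ x)) (C (x ⬝ᵥ x))

end Vale.Agent.P366N
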