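import Vale.Agent.P366N.Stm2
import Vale.Agent.P366.EvPos

/-! Eventual positivity of the two null expansions. -/

namespace Vale.Agent.P366N

open scoped Matrix ContDiff Topology
open Filter Set

open Vale.Agent.P366 (Dat ll evPos_div evPos_one)

theorem evPos_pf : EvPosStmt := by
  intro D hD
  obtain ⟨hA, hB, hC, hB', hC', hb, hc⟩ := hD
  have hp : (0 : ℝ) < 7 / 2 := by norm_num
  have hA1 := evPos_one (evPos_div hp hA)
  have hB1 := evPos_one (evPos_div hp hB)
  have hC1 := evPos_one (evPos_div hp hC)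
  have hB2 := evPos_div hp hB'
  have hC2 := evPos_div hp hC'
  have hb2 := evPos_div hp hb
  have hc2 := evPos_div hp hc
  have hlB : Tendsto (ll D.B) atTop (𝓝 (1 + 0 / 1)) :=
    tendsto_const_nhds.add (hB2.div hB1 one_ne_zero)
  have hlC : Tendsto (ll D.C) atTop (𝓝 (1 + 0 / 1)) :=
    tendsto_const_nhds.add (hC2.div hC1 one_ne_zero)
  have hh1 : Tendsto (hh D) atTop (𝓝 (7 * (1 + 0 / 1) + 8 * (1 + 0 / 1))) :=
    (hlB.const_mul 7).add (hlC.const_mul 8)
  have hsA : Tendsto (fun t => √(D.A t)) atTop (𝓝 (√1)) := hA1.sqrt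
  rw [Real.sqrt_one] at hsA
  have hH : Tendsto (fun t => hh D t / √(D.A t)) atTop
      (𝓝 ((7 * (1 + 0 / 1) + 8 * (1 + 0 / 1)) / 1)) := hh1.div hsA one_ne_zero
  have hP : Tendsto (fun t => 7 * (√t * D.b t / D.B t) + 8 * (√t * D.c t / D.C t)) atTop
      (𝓝 (7 * (0 / 1) + 8 * (0 / 1))) :=
    ((hb2.div hB1 one_ne_zero).const_mul 7).add ((hc2.div hC1 one_ne_zero).const_mul 8)
  have h1 := hH.add hP
  have h2 := hH.sub hP
  have e1 : (0 : ℝ) < (7 * (1 + 0 / 1) + 8 * (1 + 0 / 1)) / 1 + (7 * (0 / 1) + 8 * (0 / 1)) := by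
    norm_num
  have e2 : (0 : ℝ) < (7 * (1 + 0 / 1) + 8 * (1 + 0 / 1)) / 1 - (7 * (0 / 1) + 8 * (0 / 1)) := by
    norm_num
  filter_upwards [h1.eventually (lt_mem_nhds e1), h2.eventually (lt_mem_nhds e2),
    eventually_gt_atTop (0 : ℝ)] with t g1 g2 ht
  have hs : 0 < √t := Real.sqrt_pos.2 ht
  have k1 : √t * H1 D t = hh D t / √(D.A t) := by
    unfold H1
    rw [Real.sqrt_mul ht.le, ← mul_div_assoc, mul_div_mul_left _ _ hs.ne']
  have k2 : √t * PP D t = 7 * (√t * D.b t / D.B t) + 8 * (√t * D.c t / D.C t) := by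
    unfold PP
    ring
  constructor
  · have : 0 < √t * (H1 D t + PP D t) := by rw [mul_add, k1, k2]; exact g1
    exact (mul_pos_iff_of_pos_left hs).1 this
  · have : 0 < √t * (H1 D t - PP D t) := by rw [mul_sub, k1, k2]; exact g2
    exact (mul_pos_iff_of_pos_left hs).1 this

end Vale.Agent.P366N
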