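import Vale.Agent.P366N.Defs
import Vale.Agent.P366.Stm

/-! Statements of the pieces of the proof (`Spin(9)` case, `p = 7`, `q = 8`, `n = 16`). -/

namespace Vale.Agent.P366N

open scoped Matrix ContDiff Topology
open Filter Set
open Vale.Agent.P366 (Pt Ten rad pd chr scal trg nsq mom mu cur curNorm meanCurv trS sph omega cn
  area energyFlux momFlux pr0 Decay Dat ll ContStmt GenRStmt SphStmt RadStmt)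

noncomputable def hh (D : Dat) (t : ℝ) : ℝ := 7 * ll D.B t + 8 * ll D.C t

noncomputable def R1 (D : Dat) (t : ℝ) : ℝ :=
  (42 / D.B t + 224 / D.C t - 56 * D.B t / D.C t ^ 2) / t
    - 4 * deriv (hh D) t / D.A t
    + 2 * hh D t * (D.A t + t * deriv D.A t) / (t * D.A t ^ 2)
    - hh D t ^ 2 / (t * D.A t) - (7 * ll D.B t ^ 2 + 8 * ll D.C t ^ 2) / (t * D.A t)

noncomputable def PP (D : Dat) (t : ℝ) : ℝ := 7 * (D.b t / D.B t) + 8 * (D.c t / D.C t)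

noncomputable def mu1 (D : Dat) (t : ℝ) : ℝ :=
  (R1 D t + (D.a t / D.A t + PP D t) ^ 2
    - ((D.a t / D.A t) ^ 2 + 7 * (D.b t / D.B t) ^ 2 + 8 * (D.c t / D.C t) ^ 2)) / 2

noncomputable def J1 (D : Dat) (t : ℝ) : ℝ :=
  -2 * t * deriv (PP D) t + hh D t * (D.a t / D.A t)
    - (7 * ll D.B t * (D.b t / D.B t) + 8 * ll D.C t * (D.c t / D.C t))

noncomputable def H1 (D : Dat) (t : ℝ) : ℝ := hh D t / √(t * D.A t)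

noncomputable def F1 (D : Dat) (t : ℝ) : ℝ :=
  8 * (D.A t - D.C t) + 7 * (D.A t - D.B t) - 2 * t * (7 * deriv D.B t + 8 * deriv D.C t)

noncomputable def ar1 (D : Dat) (t : ℝ) : ℝ :=
  √t ^ 15 * √(D.B t ^ 7 * D.C t ^ 8)

noncomputable def w1 (D : Dat) (t : ℝ) : ℝ :=
  (11 / √(D.B t) + 4 * √(D.B t) / D.C t) / √t

noncomputable def mass (D : Dat) (t : ℝ) : ℝ :=
  1 / 2 * ar1 D t ^ ((14 : ℝ) / 15) *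
    (1 - (H1 D t ^ 2 - PP D t ^ 2) / w1 D t ^ 2)

/-- Decay of the six functions. -/
def Asym (D : Dat) : Prop :=
  Tendsto (fun t : ℝ => t ^ ((7 : ℝ) / 2) * (D.A t - 1)) atTop (𝓝 0) ∧
  Tendsto (fun t : ℝ => t ^ ((7 : ℝ) / 2) * (D.B t - 1)) atTop (𝓝 0) ∧
  Tendsto (fun t : ℝ => t ^ ((7 : ℝ) / 2) * (D.C t - 1)) atTop (𝓝 0) ∧
  Tendsto (fun t : ℝ => t ^ ((7 : ℝ) / 2) * (t * deriv D.B t)) atTop (𝓝 0) ∧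
  Tendsto (fun t : ℝ => t ^ ((7 : ℝ) / 2) * (t * deriv D.C t)) atTop (𝓝 0) ∧
  Tendsto (fun t : ℝ => t ^ ((7 : ℝ) / 2) * (√t * D.b t)) atTop (𝓝 0) ∧
  Tendsto (fun t : ℝ => t ^ ((7 : ℝ) / 2) * (√t * D.c t)) atTop (𝓝 0)

/-! ### One-variable part -/

def MonoAlgStmt : Prop :=
  ∀ X Y l1 l2 k0 k1 k2 Hs Ps H P w ws u us μ j : ℝ, 0 < X → 0 < Y →
    H = 7 * l1 + 8 * l2 → P = 7 * k1 + 8 * k2 →
    μ = ((42 * X ^ 2 + 224 * (X * Y) - 56 * Y ^ 2) - 2 * Hs - H ^ 2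
      - (7 * l1 ^ 2 + 8 * l2 ^ 2) + (k0 + P) ^ 2 - (k0 ^ 2 + 7 * k1 ^ 2 + 8 * k2 ^ 2)) / 2 →
    j = -Ps + H * k0 - (7 * l1 * k1 + 8 * l2 * k2) →
    w = 11 * X + 4 * Y →
    ws = -(11 * l1 * X) + 4 * Y * (l1 - 2 * l2) →
    u = H ^ 2 - P ^ 2 → us = 2 * H * Hs - 2 * P * Ps →
    |j| ≤ μ → 0 < H + P → 0 < H - P → u ≤ w ^ 2 →
    0 ≤ 14 / 15 * H * (1 - u / w ^ 2) - us / w ^ 2 + 2 * u * ws / w ^ 3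

def MonoStmt : Prop :=
  ∀ (D : Dat) (t : ℝ), 0 < t → 0 < D.A t → 0 < D.B t → 0 < D.C t →
    |J1 D t| / √(t * D.A t) ≤ mu1 D t →
    0 < H1 D t + PP D t →
    0 < H1 D t - PP D t →
    0 ≤ mass D t → DifferentiableAt ℝ (mass D) t ∧ 0 ≤ deriv (mass D) t

def LimStmt : Prop :=
  ∀ (D : Dat) (E : ℝ), Asym D →
    Tendsto (fun t : ℝ => √t ^ 14 * F1 D t / 30) atTop (𝓝 E) →
    Tendsto (mass D) atTop (𝓝 E)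

def EvPosStmt : Prop :=
  ∀ (D : Dat), Asym D →
    ∀ᶠ t in atTop, 0 < H1 D t + PP D t ∧
      0 < H1 D t - PP D t

def OdeStmt : Prop :=
  ∀ (D : Dat) (t0 E : ℝ), 0 < t0 →
    (∀ t, t0 ≤ t → 0 < D.A t ∧ 0 < D.B t ∧ 0 < D.C t) →
    (∀ t, t0 < t → |J1 D t| / √(t * D.A t) ≤ mu1 D t) →
    H1 D t0 + PP D t0 ≤ 0 → Asym D →
    Tendsto (fun t : ℝ => √t ^ 14 * F1 D t / 30) atTop (𝓝 E) →
    ∃ t, t0 ≤ t ∧ 1 / 2 * ar1 D t ^ ((14 : ℝ) / 15) ≤ E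

/-! ### The ansatz -/

/-- The derivative of `|x|^2 prL` in the direction `u`. -/
noncomputable def Bm (J : Fin 9 → Matrix (Fin 16) (Fin 16) ℝ) (x u : Pt 16) :
    Matrix (Fin 16) (Fin 16) ℝ :=
  (x ⬝ᵥ u) • (1 : Matrix (Fin 16) (Fin 16) ℝ) + ∑ i, ((J i *ᵥ x) ⬝ᵥ u) • J i

/-- The matrix `(w, v) ↦ Bm v (u, w)`. -/
noncomputable def Em (J : Fin 9 → Matrix (Fin 16) (Fin 16) ℝ) (x u : Pt 16) :
    Matrix (Fin 16) (Fin 16) ℝ :=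
  Matrix.vecMulVec u x + ∑ i, Matrix.vecMulVec (J i *ᵥ u) (J i *ᵥ x)

/-- The derivative of `hopf` in the direction `u`. -/
noncomputable def Dm (J : Fin 9 → Matrix (Fin 16) (Fin 16) ℝ) (x : Pt 16) (A B C A' B' C' : ℝ)
    (u : Pt 16) : Matrix (Fin 16) (Fin 16) ℝ :=
  (2 * (x ⬝ᵥ u)) • blk J x (A' - (A - C) / (x ⬝ᵥ x)) (B' - (B - C) / (x ⬝ᵥ x)) C'
    + ((A - B) / (x ⬝ᵥ x)) • (Matrix.vecMulVec u x + Matrix.vecMulVec x u)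
    + ((B - C) / (x ⬝ᵥ x)) • Bm J x u

/-- The lowered Christoffel symbols in the direction `u`. -/
noncomputable def Tm (J : Fin 9 → Matrix (Fin 16) (Fin 16) ℝ) (x : Pt 16) (A B C A' B' C' : ℝ)
    (u : Pt 16) : Matrix (Fin 16) (Fin 16) ℝ :=
  ((A - B) / (x ⬝ᵥ x)) • Matrix.vecMulVec x u
    + ((B - C) / (x ⬝ᵥ x) / 2) • (Bm J x u + Em J x u - (Em J x u)ᵀ)
    + (x ⬝ᵥ u) • blk J x (A' - (A - C) / (x ⬝ᵥ x)) (B' - (B - C) / (x ⬝ᵥ x)) C'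
    + Matrix.vecMulVec (blk J x (A' - (A - C) / (x ⬝ᵥ x)) (B' - (B - C) / (x ⬝ᵥ x)) C' *ᵥ u) x
    - Matrix.vecMulVec x (blk J x (A' - (A - C) / (x ⬝ᵥ x)) (B' - (B - C) / (x ⬝ᵥ x)) C' *ᵥ u)

/-- The Christoffel symbols in the direction `u`. -/
noncomputable def Gam (J : Fin 9 → Matrix (Fin 16) (Fin 16) ℝ) (x : Pt 16) (A B C A' B' C' : ℝ)
    (u : Pt 16) : Matrix (Fin 16) (Fin 16) ℝ :=
  blk J x A⁻¹ B⁻¹ C⁻¹ * Tm J x A B C A' B' C' u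

noncomputable def vv (t A B C A' B' C' : ℝ) : ℝ :=
  (8 * ((A - C) / t - C') / C + A' / A + 7 * ((A - B) / t - B') / B) / A

noncomputable def ww (A B C A' B' C' : ℝ) : ℝ := A' / A + 7 * B' / B + 8 * C' / C

noncomputable def qq (t A B C A' B' C' : ℝ) : ℝ :=
  8 * 2 * t * ((A - C) / t - C') * C' / (A * C ^ 2)
    + (t / A) * ((A' / A) ^ 2 + 7 * (B' / B) ^ 2 + 8 * (C' / C) ^ 2)
    + (7 / B) * t * (2 * ((A - B) / t - B') * B' / (A * B) - ((B - C) / t) ^ 2 * 8 / C ^ 2)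

def JetStmt : Prop :=
  ∀ (J : Fin 9 → Matrix (Fin 16) (Fin 16) ℝ) (A B C : ℝ → ℝ) (x : Pt 16), IsCliff J → x ≠ 0 →
    DifferentiableAt ℝ A (x ⬝ᵥ x) → DifferentiableAt ℝ B (x ⬝ᵥ x) → DifferentiableAt ℝ C (x ⬝ᵥ x) →
    ∀ i j k, pd k (fun y => hopf J A B C y i j) x =
      Dm J x (A (x ⬝ᵥ x)) (B (x ⬝ᵥ x)) (C (x ⬝ᵥ x)) (deriv A (x ⬝ᵥ x)) (deriv B (x ⬝ᵥ x))
        (deriv C (x ⬝ᵥ x)) (Pi.single k 1) i j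

def SmoothStmt : Prop :=
  ∀ (J : Fin 9 → Matrix (Fin 16) (Fin 16) ℝ) (A B C : ℝ → ℝ) (x : Pt 16), x ≠ 0 →
    ContDiff ℝ ∞ A → ContDiff ℝ ∞ B → ContDiff ℝ ∞ C →
    ∀ i j, ContDiffAt ℝ 2 (fun y => hopf J A B C y i j) x

def DetStmt : Prop :=
  ∀ (J : Fin 9 → Matrix (Fin 16) (Fin 16) ℝ) (x : Pt 16) (A B C : ℝ), IsCliff J →
    x ≠ 0 → C ≠ 0 → (blk J x A B C).det = A * B ^ 7 * C ^ 8

def ChrStmt : Prop :=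
  ∀ (J : Fin 9 → Matrix (Fin 16) (Fin 16) ℝ) (D : Dat) (x : Pt 16), IsCliff J → x ≠ 0 →
    D.A (x ⬝ᵥ x) ≠ 0 → D.B (x ⬝ᵥ x) ≠ 0 → D.C (x ⬝ᵥ x) ≠ 0 → ∀ k i j,
    chr (hopf J D.A D.B D.C) k i j x =
      Gam J x (D.A (x ⬝ᵥ x)) (D.B (x ⬝ᵥ x)) (D.C (x ⬝ᵥ x)) (deriv D.A (x ⬝ᵥ x))
        (deriv D.B (x ⬝ᵥ x)) (deriv D.C (x ⬝ᵥ x)) (Pi.single i 1) k j

def VStmt : Prop :=
  ∀ (J : Fin 9 → Matrix (Fin 16) (Fin 16) ℝ) (x : Pt 16) (A B C A' B' C' : ℝ), IsCliff J →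
    x ≠ 0 → A ≠ 0 → B ≠ 0 → C ≠ 0 → ∀ k,
    ∑ i, ∑ j, blk J x A⁻¹ B⁻¹ C⁻¹ i j * Gam J x A B C A' B' C' (Pi.single i 1) k j =
      vv (x ⬝ᵥ x) A B C A' B' C' * x k

def WStmt : Prop :=
  ∀ (J : Fin 9 → Matrix (Fin 16) (Fin 16) ℝ) (x : Pt 16) (A B C A' B' C' : ℝ), IsCliff J →
    x ≠ 0 → A ≠ 0 → B ≠ 0 → C ≠ 0 → ∀ i,
    ∑ k, Gam J x A B C A' B' C' (Pi.single i 1) k k = ww A B C A' B' C' * x i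

def QStmt : Prop :=
  ∀ (J : Fin 9 → Matrix (Fin 16) (Fin 16) ℝ) (x : Pt 16) (A B C A' B' C' : ℝ), IsCliff J →
    x ≠ 0 → A ≠ 0 → B ≠ 0 → C ≠ 0 →
    ∑ i, ∑ j, blk J x A⁻¹ B⁻¹ C⁻¹ i j * ∑ k, ∑ l,
      Gam J x A B C A' B' C' (Pi.single j 1) k l * Gam J x A B C A' B' C' (Pi.single i 1) l k =
      qq (x ⬝ᵥ x) A B C A' B' C'

/-- `Γ^k_{ij} x^j` (equivalently `Γ^k_{ji} x^j`). -/
def GxStmt : Prop :=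
  ∀ (J : Fin 9 → Matrix (Fin 16) (Fin 16) ℝ) (x : Pt 16) (A B C A' B' C' : ℝ), IsCliff J →
    x ≠ 0 → A ≠ 0 → B ≠ 0 → C ≠ 0 → ∀ k i,
    ∑ j, Gam J x A B C A' B' C' (Pi.single i 1) k j * x j =
      (x ⬝ᵥ x) * blk J x (A' / A) (B' / B) (C' / C) k i

/-- Contracted derivative of the ansatz. -/
def DivStmt : Prop :=
  ∀ (J : Fin 9 → Matrix (Fin 16) (Fin 16) ℝ) (x : Pt 16) (α β γ A B C A' B' C' : ℝ),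
    IsCliff J → x ≠ 0 →
    (∑ i, ∑ k, ∑ j, blk J x α β γ i k * Dm J x A B C A' B' C' (Pi.single i 1) k j * x j =
      8 * (A - C) * γ + 7 * (A - B) * β + 2 * (x ⬝ᵥ x) * A' * α) ∧
    ∀ i j, ∑ k, x k * Dm J x A B C A' B' C' (Pi.single k 1) i j =
      2 * (x ⬝ᵥ x) * blk J x A' B' C' i j

def ScalStmt : Prop :=
  ∀ (J : Fin 9 → Matrix (Fin 16) (Fin 16) ℝ) (D : Dat) (x : Pt 16), IsCliff J → x ≠ 0 →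
    D.A (x ⬝ᵥ x) ≠ 0 → D.B (x ⬝ᵥ x) ≠ 0 → D.C (x ⬝ᵥ x) ≠ 0 →
    scal (hopf J D.A D.B D.C) x = R1 D (x ⬝ᵥ x)

def KStmt : Prop :=
  ∀ (J : Fin 9 → Matrix (Fin 16) (Fin 16) ℝ) (D : Dat) (x : Pt 16), IsCliff J → x ≠ 0 →
    0 < D.A (x ⬝ᵥ x) → D.B (x ⬝ᵥ x) ≠ 0 → D.C (x ⬝ᵥ x) ≠ 0 →
    trg (hopf J D.A D.B D.C) (hopf J D.a D.b D.c) x =
      D.a (x ⬝ᵥ x) / D.A (x ⬝ᵥ x) + PP D (x ⬝ᵥ x) ∧
    nsq (hopf J D.A D.B D.C) (hopf J D.a D.b D.c) x =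
      (D.a (x ⬝ᵥ x) / D.A (x ⬝ᵥ x)) ^ 2 + 7 * (D.b (x ⬝ᵥ x) / D.B (x ⬝ᵥ x)) ^ 2
        + 8 * (D.c (x ⬝ᵥ x) / D.C (x ⬝ᵥ x)) ^ 2 ∧
    trS (hopf J D.A D.B D.C) (hopf J D.a D.b D.c) x = PP D (x ⬝ᵥ x) ∧
    ∀ i, ∑ j, mom (hopf J D.A D.B D.C) (hopf J D.a D.b D.c) x i j * x j =
      -(D.A (x ⬝ᵥ x) * PP D (x ⬝ᵥ x)) * x i

def HStmt : Prop :=
  ∀ (J : Fin 9 → Matrix (Fin 16) (Fin 16) ℝ) (D : Dat) (x : Pt 16), IsCliff J → x ≠ 0 →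
    0 < D.A (x ⬝ᵥ x) → D.B (x ⬝ᵥ x) ≠ 0 → D.C (x ⬝ᵥ x) ≠ 0 →
    meanCurv (hopf J D.A D.B D.C) x = H1 D (x ⬝ᵥ x)

def CurStmt : Prop :=
  ∀ (J : Fin 9 → Matrix (Fin 16) (Fin 16) ℝ) (D : Dat) (x : Pt 16), IsCliff J → x ≠ 0 →
    0 < D.A (x ⬝ᵥ x) → D.B (x ⬝ᵥ x) ≠ 0 → D.C (x ⬝ᵥ x) ≠ 0 →
    ∑ j, cur (hopf J D.A D.B D.C) (hopf J D.a D.b D.c) j x * x j = J1 D (x ⬝ᵥ x)

def CsStmt : Prop :=
  ∀ (J : Fin 9 → Matrix (Fin 16) (Fin 16) ℝ) (x v : Pt 16) (A B C : ℝ), IsCliff J → x ≠ 0 →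
    0 < A → 0 < B → 0 < C →
    |∑ j, v j * x j| / √((x ⬝ᵥ x) * A) ≤ √(∑ i, ∑ j, (blk J x A B C)⁻¹ i j * v i * v j)

def FluxStmt : Prop :=
  ∀ (J : Fin 9 → Matrix (Fin 16) (Fin 16) ℝ) (D : Dat) (r : ℝ), IsCliff J → 0 < r →
    0 < D.A (r ^ 2) → 0 < D.B (r ^ 2) → 0 < D.C (r ^ 2) →
    energyFlux (hopf J D.A D.B D.C) r =
      r ^ 14 * F1 D (r ^ 2) / 30 ∧
    (∀ i, momFlux (hopf J D.A D.B D.C) (hopf J D.a D.b D.c) i r = 0) ∧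
    area (hopf J D.A D.B D.C) r / omega 16 = ar1 D (r ^ 2)

def DecayStmt : Prop :=
  ∀ (J : Fin 9 → Matrix (Fin 16) (Fin 16) ℝ) (D : Dat) (R τ : ℝ), IsCliff J → 0 < R →
    7 < τ → Decay (hopf J D.A D.B D.C) (hopf J D.a D.b D.c) R τ → Asym D

/-- The quartic identity behind the Hopf map `S^15 → S^8`. -/
def QuartStmt : Prop :=
  ∀ (J : Fin 9 → Matrix (Fin 16) (Fin 16) ℝ) (x : Pt 16), IsCliff J →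
    ∑ i, (x ⬝ᵥ (J i *ᵥ x)) ^ 2 = (x ⬝ᵥ x) ^ 2

end Vale.Agent.P366N
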